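import Crest.Agent.N41.Pair.Mean
import Crest.Agent.N41.Exp.Weyl

/-!
# Row 41, Pair Lemma, part 2 (helper95): Abel summation, the archimedean comparison, and the
Parseval bound for pair sums.
-/

set_option autoImplicit false

open Finset

namespace Crest.Agent.N41.Pair

open Crest.Agent.N41.Exp

lemma norm_e_sub_e (x y : ℝ) : ‖e x - e y‖ ≤ 7 * |x - y| := by
  have h : e x - e y = e y * (e (x - y) - 1) := by
    rw [mul_sub, ← e_add]; simp
  rw [h, norm_mul, norm_e, one_mul, e_eq]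
  refine Real.norm_exp_I_mul_ofReal_sub_one_le.trans ?_
  rw [Real.norm_eq_abs, abs_mul, abs_of_pos (by positivity : (0 : ℝ) < 2 * Real.pi)]
  have := Real.pi_lt_d2
  gcongr
  linarith

lemma Ico_succ_int {a b : ℤ} (h : a ≤ b) : Ico a (b + 1) = insert b (Ico a b) := by
  ext x; simp only [mem_Ico, mem_insert]; omega

lemma abel_id (c v : ℤ → ℂ) {a b : ℤ} (hab : a ≤ b) :
    ∑ n ∈ Ico a b, c n * v n = (∑ n ∈ Ico a b, c n) * v b -
      ∑ n ∈ Ico a b, (∑ m ∈ Ico a (n + 1), c m) * (v (n + 1) - v n) := by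
  induction b, hab using Int.leInduction with
  | base => simp
  | succ b hab ih =>
    rw [Ico_succ_int hab, sum_insert (by simp), sum_insert (by simp),
      sum_insert (by simp), ih, Ico_succ_int hab, sum_insert (by simp)]
    ring

/-- Abel summation -/
lemma abel_le (c v : ℤ → ℂ) {a b : ℤ} (hab : a ≤ b) {E V : ℝ}
    (hE : ∀ x, a ≤ x → x ≤ b → ‖∑ n ∈ Ico a x, c n‖ ≤ E)
    (hV : ‖v b‖ + ∑ n ∈ Ico a b, ‖v (n + 1) - v n‖ ≤ V) :
    ‖∑ n ∈ Ico a b, c n * v n‖ ≤ E * V := by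
  have hE0 : 0 ≤ E := (norm_nonneg _).trans (hE a le_rfl hab)
  rw [abel_id c v hab]
  refine (norm_sub_le _ _).trans (le_trans ?_ (mul_le_mul_of_nonneg_left hV hE0))
  rw [mul_add, mul_sum]
  gcongr
  · rw [norm_mul]; gcongr; exact hE b hab le_rfl
  · refine (norm_sum_le _ _).trans (sum_le_sum fun n hn => ?_)
    rw [norm_mul]; gcongr
    have := mem_Ico.mp hn
    exact hE (n + 1) (by omega) (by omega)

lemma sum_Ico_tele (f : ℤ → ℝ) {a b : ℤ} (hab : a ≤ b) :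
    ∑ n ∈ Ico a b, (f (n + 1) - f n) = f b - f a := by
  induction b, hab using Int.leInduction with
  | base => simp
  | succ b hab ih => rw [Ico_succ_int hab, sum_insert (by simp), ih]; ring

lemma card_Ico_real {a b : ℤ} (hab : a ≤ b) : (#(Ico a b) : ℝ) = (b : ℝ) - a := by
  rw [Int.card_Ico]
  have h := Int.toNat_of_nonneg (sub_nonneg.mpr hab)
  exact_mod_cast congrArg (fun z : ℤ => (z : ℝ)) h

/-- variation of `e(β t)` -/
lemma var_e (β : ℝ) {a b : ℤ} (hab : a ≤ b) :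
    ‖e (β * b)‖ + ∑ n ∈ Ico a b, ‖e (β * ((n + 1 : ℤ) : ℝ)) - e (β * n)‖ ≤
      1 + 7 * (|β| * ((b : ℝ) - a)) := by
  rw [norm_e]
  gcongr
  calc ∑ n ∈ Ico a b, ‖e (β * ((n + 1 : ℤ) : ℝ)) - e (β * n)‖ ≤ ∑ n ∈ Ico a b, 7 * |β| := by
        refine sum_le_sum fun n _ => (norm_e_sub_e _ _).trans (le_of_eq ?_)
        push_cast; congr 2; ring
    _ = _ := by rw [sum_const, nsmul_eq_mul, card_Ico_real hab]; ring

/-- the increment `P (m+1) - P m` -/
def inc (P : ℤ → ℤ) (m : ℤ) : ℤ := P (m + 1) - P m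

/-- `P` is increasing and convex on `[a, b]` with increments at most `Δ` -/
structure Conv (P : ℤ → ℤ) (a b : ℤ) (Δ : ℝ) : Prop where
  le : a ≤ b
  nonneg : 0 ≤ inc P a
  mono : ∀ n, a ≤ n → n < b → inc P n ≤ inc P (n + 1)
  top : (inc P b : ℝ) ≤ Δ

lemma Conv.inc_mono {P : ℤ → ℤ} {a b : ℤ} {Δ : ℝ} (h : Conv P a b Δ) {x y : ℤ} (hx : a ≤ x)
    (hxy : x ≤ y) (hy : y ≤ b) : inc P x ≤ inc P y := by
  induction y, hxy using Int.leInduction with
  | base => exact le_rfl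
  | succ y hxy ih => exact (ih (by omega)).trans (h.mono y (by omega) (by omega))

lemma Conv.inc_nonneg {P : ℤ → ℤ} {a b : ℤ} {Δ : ℝ} (h : Conv P a b Δ) {x : ℤ} (hx : a ≤ x)
    (hy : x ≤ b) : 0 ≤ inc P x := h.nonneg.trans (h.inc_mono le_rfl hx hy)

lemma Conv.inc_le {P : ℤ → ℤ} {a b : ℤ} {Δ : ℝ} (h : Conv P a b Δ) {x : ℤ} (hx : a ≤ x)
    (hy : x ≤ b) : (inc P x : ℝ) ≤ Δ :=
  le_trans (by exact_mod_cast h.inc_mono hx hy le_rfl) h.top

lemma Conv.P_mono {P : ℤ → ℤ} {a b : ℤ} {Δ : ℝ} (h : Conv P a b Δ) {x y : ℤ} (hx : a ≤ x)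
    (hxy : x ≤ y) (hy : y ≤ b) : P x ≤ P y := by
  induction y, hxy using Int.leInduction with
  | base => exact le_rfl
  | succ y hxy ih =>
    have h1 := h.inc_nonneg (x := y) (by omega) (by omega)
    have h2 := ih (by omega)
    simp only [inc] at h1
    omega

/-- variation of `ΔP(m) e(β P(m))` -/
lemma Conv.var {P : ℤ → ℤ} {a b : ℤ} {Δ : ℝ} (h : Conv P a b Δ) (β : ℝ) :
    ‖(inc P b : ℂ) * e (β * P b)‖ + ∑ n ∈ Ico a b,
      ‖(inc P (n + 1) : ℂ) * e (β * P (n + 1)) - (inc P n : ℂ) * e (β * P n)‖ ≤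
      Δ * (2 + 7 * (|β| * ((P b : ℝ) - P a))) := by
  have hab := h.le
  have h1 : ‖(inc P b : ℂ) * e (β * P b)‖ ≤ Δ := by
    rw [norm_mul, norm_e, mul_one, Complex.norm_intCast, abs_of_nonneg
      (by exact_mod_cast h.inc_nonneg hab le_rfl)]
    exact h.top
  have h2 : ∀ n ∈ Ico a b,
      ‖(inc P (n + 1) : ℂ) * e (β * P (n + 1)) - (inc P n : ℂ) * e (β * P n)‖ ≤
      ((inc P (n + 1) : ℝ) - inc P n) + Δ * (7 * |β|) * ((P (n + 1) : ℝ) - P n) := by
    intro n hn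
    obtain ⟨hn1, hn2⟩ := mem_Ico.mp hn
    have e1 : (inc P (n + 1) : ℂ) * e (β * P (n + 1)) - (inc P n : ℂ) * e (β * P n) =
        ((inc P (n + 1) - inc P n : ℤ) : ℂ) * e (β * P (n + 1)) +
          (inc P n : ℂ) * (e (β * P (n + 1)) - e (β * P n)) := by push_cast; ring
    have a1 : (0 : ℝ) ≤ (inc P (n + 1) - inc P n : ℤ) := by
      exact_mod_cast sub_nonneg.mpr (h.mono n hn1 hn2)
    have a2 : (0 : ℝ) ≤ inc P n := by exact_mod_cast h.inc_nonneg hn1 hn2.le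
    have a3 : (0 : ℝ) ≤ (P (n + 1) : ℝ) - P n := by
      have := h.P_mono hn1 (show n ≤ n + 1 by omega) (by omega)
      exact sub_nonneg.mpr (by exact_mod_cast this)
    rw [e1]
    refine (norm_add_le _ _).trans (add_le_add ?_ ?_)
    · rw [norm_mul, norm_e, mul_one, Complex.norm_intCast, abs_of_nonneg a1]
      push_cast; exact le_rfl
    · rw [norm_mul, Complex.norm_intCast, abs_of_nonneg a2, mul_assoc]
      refine mul_le_mul (h.inc_le hn1 hn2.le) ((norm_e_sub_e _ _).trans (le_of_eq ?_))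
        (norm_nonneg _) (a2.trans (h.inc_le hn1 hn2.le))
      rw [← mul_sub, abs_mul, abs_of_nonneg a3]; ring
  have h3 := sum_le_sum h2
  rw [sum_add_distrib, ← mul_sum, sum_Ico_tele (fun n => (inc P n : ℝ)) hab,
    sum_Ico_tele (fun n => (P n : ℝ)) hab] at h3
  have h4 : (0 : ℝ) ≤ inc P a := by exact_mod_cast h.nonneg
  nlinarith [h.top]

lemma Conv.norm_sum {P : ℤ → ℤ} {a b : ℤ} {Δ : ℝ} (h : Conv P a b Δ) (β : ℝ) :
    ‖∑ m ∈ Ico a b, (inc P m : ℂ) * e (β * P m)‖ ≤ (P b : ℝ) - P a := by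
  rw [← sum_Ico_tele (fun n => (P n : ℝ)) h.le]
  refine (norm_sum_le _ _).trans (sum_le_sum fun n hn => ?_)
  obtain ⟨hn1, hn2⟩ := mem_Ico.mp hn
  rw [norm_mul, norm_e, mul_one, Complex.norm_intCast, abs_of_nonneg
    (by exact_mod_cast h.inc_nonneg hn1 hn2.le)]
  simp [inc]

/-- the archimedean comparison -/
lemma Conv.arch {P : ℤ → ℤ} {a b : ℤ} {Δ : ℝ} (h : Conv P a b Δ) (β : ℝ) :
    ‖∑ m ∈ Ico a b, (inc P m : ℂ) * e (β * P m) - ∑ t ∈ Ico (P a) (P b), e (β * t)‖ ≤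
      Δ * (7 * (|β| * ((P b : ℝ) - P a))) := by
  have key : ∀ x, a ≤ x → x ≤ b →
      ‖∑ m ∈ Ico a x, (inc P m : ℂ) * e (β * P m) - ∑ t ∈ Ico (P a) (P x), e (β * t)‖ ≤
      Δ * (7 * (|β| * ((P x : ℝ) - P a))) := by
    intro x hx
    induction x, hx using Int.leInduction with
    | base => intro _; simp
    | succ x hx ih =>
      intro hxb
      have h1 := h.P_mono le_rfl hx (by omega)
      have h2 := h.P_mono hx (show x ≤ x + 1 by omega) hxb
      have hinc : (inc P x : ℝ) = (P (x + 1) : ℝ) - P x := by simp [inc]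
      rw [Ico_succ_int hx, sum_insert (by simp), ← Ico_union_Ico_eq_Ico h1 h2,
        sum_union (Ico_disjoint_Ico_consecutive _ _ _)]
      have hc := card_Ico_real h2
      have e1 : (inc P x : ℂ) * e (β * P x) = ∑ _t ∈ Ico (P x) (P (x + 1)), e (β * P x) := by
        rw [sum_const, nsmul_eq_mul]
        congr 1
        rw [← hinc] at hc
        exact_mod_cast congrArg (fun z : ℝ => (z : ℂ)) hc.symm
      have h3 : ‖(inc P x : ℂ) * e (β * P x) -
          ∑ t ∈ Ico (P x) (P (x + 1)), e (β * t)‖ ≤ Δ * (7 * (|β| * ((P (x + 1) : ℝ) - P x))) := by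
        rw [e1, ← sum_sub_distrib]
        refine (norm_sum_le _ _).trans ?_
        have hΔ := h.inc_le (x := x) hx (by omega)
        calc ∑ t ∈ Ico (P x) (P (x + 1)), ‖e (β * P x) - e (β * t)‖
            ≤ ∑ _t ∈ Ico (P x) (P (x + 1)), 7 * (|β| * Δ) := by
              refine sum_le_sum fun t ht => (norm_e_sub_e _ _).trans ?_
              obtain ⟨t1, t2⟩ := mem_Ico.mp ht
              have t3 : (P x : ℝ) ≤ t := by exact_mod_cast t1
              have t4 : (t : ℝ) ≤ P (x + 1) := by exact_mod_cast t2.le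
              rw [← mul_sub, abs_mul, abs_sub_comm, abs_of_nonneg (sub_nonneg.mpr t3)]
              gcongr
              linarith
          _ = _ := by rw [sum_const, nsmul_eq_mul, hc]; ring
      have h4 := ih (by omega)
      calc _ = ‖(∑ m ∈ Ico a x, (inc P m : ℂ) * e (β * P m) - ∑ t ∈ Ico (P a) (P x), e (β * t)) +
            ((inc P x : ℂ) * e (β * P x) -
              ∑ t ∈ Ico (P x) (P (x + 1)), e (β * t))‖ := by congr 1; ring
        _ ≤ _ := (norm_add_le _ _).trans (by nlinarith)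
  exact key b h.le le_rfl

/-- counting integers of an interval in a residue class -/
lemma card_class' {Q : ℕ} (hQ : Q ≠ 0) {a b : ℤ} (hab : a ≤ b) (ρ : ℤ) :
    |(#((Ico a b).filter (fun m => (Q : ℤ) ∣ m - ρ)) : ℝ) - ((b : ℝ) - a) / Q| ≤ 1 := by
  have h := card_class hQ (show a - 1 ≤ b - 1 by omega) ρ
  have e : Ioc (a - 1) (b - 1) = Ico a b := by ext x; simp only [mem_Ioc, mem_Ico]; omega
  rw [e] at h
  push_cast at h
  rwa [show (b : ℝ) - 1 - (a - 1) = b - a by ring] at h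

/-- a linear exponential sum along a residue class -/
lemma linear_class {Q : ℕ} (hQ : Q ≠ 0) (a b ρ : ℤ) (α : ℝ) :
    |Q * α - round (Q * α)| * ‖∑ t ∈ (Ico a b).filter (fun m => (Q : ℤ) ∣ m - ρ), e (α * t)‖ ≤
      1 / 2 := by
  have hQ' : (0 : ℤ) < Q := by exact_mod_cast Nat.pos_of_ne_zero hQ
  have h := linear_sum_le (α * ρ) (Q * α) ((a - 1 - ρ) / Q) ((b - 1 - ρ) / Q)
  refine le_trans (le_of_eq ?_) h
  congr 2
  symm
  refine sum_nbij' (fun j => ρ + Q * j) (fun t => (t - ρ) / Q) ?_ ?_ ?_ ?_ ?_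
  · intro j hj
    obtain ⟨h1, h2⟩ := mem_Ioc.mp hj
    rw [Int.ediv_lt_iff_lt_mul hQ'] at h1
    rw [Int.le_ediv_iff_mul_le hQ'] at h2
    refine mem_filter.mpr ⟨mem_Ico.mpr ⟨?_, ?_⟩, by simp⟩ <;> linarith
  · intro t ht
    obtain ⟨h1, c, hc⟩ := mem_filter.mp ht
    obtain ⟨h2, h3⟩ := mem_Ico.mp h1
    simp only [hc, Int.mul_ediv_cancel_left _ hQ'.ne', mem_Ioc]
    rw [Int.ediv_lt_iff_lt_mul hQ', Int.le_ediv_iff_mul_le hQ']
    constructor <;> linarith
  · intro j _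
    simp [Int.mul_ediv_cancel_left _ hQ'.ne']
  · intro t ht
    obtain ⟨_, c, hc⟩ := mem_filter.mp ht
    simp only [hc, Int.mul_ediv_cancel_left _ hQ'.ne']
    linarith
  · intro j _
    congr 1; push_cast; ring

lemma orth {Q : ℕ} (hQ : Q ≠ 0) {n : ℤ} (hn : |n| < Q) :
    ∑ j ∈ range Q, e (n * ((j : ℤ) : ℝ) / Q) = if n = 0 then (Q : ℂ) else 0 := by
  split_ifs with h
  · simp [h]
  · exact sum_e_eq_zero hQ fun hd => h (Int.eq_zero_of_abs_lt_dvd hd hn)

lemma parseval {Q : ℕ} (hQ : Q ≠ 0) (A : Finset ℤ) (hA : ∀ x ∈ A, ∀ y ∈ A, |x - y| < Q) :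
    ∑ j ∈ range Q, ‖∑ x ∈ A, e (x * ((j : ℤ) : ℝ) / Q)‖ ^ 2 = Q * #A := by
  have h1 : ((∑ j ∈ range Q, ‖∑ x ∈ A, e (x * ((j : ℤ) : ℝ) / Q)‖ ^ 2 : ℝ) : ℂ) =
      ∑ x ∈ A, ∑ y ∈ A, ∑ j ∈ range Q, e (((x - y : ℤ) : ℝ) * ((j : ℤ) : ℝ) / Q) := by
    push_cast
    have : ∀ j ∈ range Q, ((‖∑ x ∈ A, e (x * (j : ℝ) / Q)‖ : ℂ)) ^ 2 =
        ∑ x ∈ A, ∑ y ∈ A, e (((x : ℝ) - y) * (j : ℝ) / Q) := by
      intro j _
      rw [← Complex.mul_conj', map_sum, sum_mul_sum]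
      refine sum_congr rfl fun x _ => sum_congr rfl fun y _ => ?_
      rw [← e_sub]; congr 1; ring
    rw [sum_congr rfl this, sum_comm]
    exact sum_congr rfl fun x _ => sum_comm
  have h2 : ∑ x ∈ A, ∑ y ∈ A, ∑ j ∈ range Q, e (((x - y : ℤ) : ℝ) * ((j : ℤ) : ℝ) / Q) =
      ((Q * #A : ℝ) : ℂ) := by
    rw [sum_congr rfl fun x hx => sum_congr rfl fun y hy => orth hQ (hA x hx y hy)]
    have : ∀ x ∈ A, ∑ y ∈ A, (if x - y = 0 then (Q : ℂ) else 0) = Q := by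
      intro x hx
      simp only [sub_eq_zero]
      rw [sum_ite_eq]; simp [hx]
    rw [sum_congr rfl this]; simp [mul_comm]
  exact_mod_cast h1.trans h2

/-- pair sums are controlled by the sup norm of the Fourier transform -/
theorem pair_le (F : ℤ → ℂ) (s A B : Finset ℤ) (hF : ∀ t, t ∉ s → F t = 0) {H : ℝ}
    (hH : ∀ α : ℝ, ‖∑ t ∈ s, F t * e (α * t)‖ ≤ H) :
    ‖∑ x ∈ A, ∑ y ∈ B, F (y - x)‖ ≤ H * ((#A + #B) / 2) := by
  classical
  obtain ⟨N, hN⟩ : ∃ N : ℕ, ∀ u ∈ s ∪ A ∪ B, |u| ≤ N := by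
    refine ⟨(s ∪ A ∪ B).sup Int.natAbs, fun u hu => ?_⟩
    have : u.natAbs ≤ (s ∪ A ∪ B).sup Int.natAbs := le_sup hu
    rw [Int.abs_eq_natAbs]; exact_mod_cast this
  have hs : ∀ u ∈ s, |u| ≤ N := fun u hu => hN u (by simp [hu])
  have hA : ∀ u ∈ A, |u| ≤ N := fun u hu => hN u (by simp [hu])
  have hB : ∀ u ∈ B, |u| ≤ N := fun u hu => hN u (by simp [hu])
  set Q : ℕ := 3 * N + 1 with hQdef
  have hQ : Q ≠ 0 := by omega
  have hQ' : (Q : ℤ) = 3 * N + 1 := by rw [hQdef]; push_cast; ring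
  have hQ0 : (0 : ℝ) < Q := by exact_mod_cast Nat.pos_of_ne_zero hQ
  have hH0 : 0 ≤ H := (norm_nonneg _).trans (hH 0)
  set a : ℕ → ℂ := fun j => ∑ x ∈ A, e (x * ((j : ℤ) : ℝ) / Q) with ha
  set b : ℕ → ℂ := fun j => ∑ y ∈ B, e (y * ((j : ℤ) : ℝ) / Q) with hb
  have h1 : (Q : ℂ) * ∑ x ∈ A, ∑ y ∈ B, F (y - x) = ∑ j ∈ range Q,
      (∑ t ∈ s, F t * e ((((j : ℤ) : ℝ) / Q) * t)) * (a j * (starRingEnd ℂ) (b j)) := by
    calc (Q : ℂ) * ∑ x ∈ A, ∑ y ∈ B, F (y - x)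
        = ∑ x ∈ A, ∑ y ∈ B, ∑ t ∈ s, F t *
            ∑ j ∈ range Q, e (((t + x - y : ℤ) : ℝ) * ((j : ℤ) : ℝ) / Q) := by
          rw [mul_sum]
          refine sum_congr rfl fun x hx => ?_
          rw [mul_sum]
          refine sum_congr rfl fun y hy => ?_
          have : ∀ t ∈ s, F t * ∑ j ∈ range Q, e (((t + x - y : ℤ) : ℝ) * ((j : ℤ) : ℝ) / Q) =
              if t = y - x then F t * Q else 0 := by
            intro t ht
            rw [orth hQ (by
              have := abs_le.mp (hs t ht); have := abs_le.mp (hA x hx)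
              have := abs_le.mp (hB y hy); rw [abs_lt]; omega)]
            by_cases h : t = y - x
            · rw [if_pos h, if_pos (by omega)]
            · rw [if_neg h, if_neg (by omega), mul_zero]
          rw [sum_congr rfl this, sum_ite_eq']
          split_ifs with h
          · ring
          · rw [hF _ h, mul_zero]
      _ = _ := by
          simp only [ha, hb, map_sum, mul_sum, sum_mul]
          rw [sum_comm (s := range Q)]
          simp only [sum_comm (s := range Q)]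
          rw [sum_comm (s := A)]
          refine sum_congr rfl fun y _ => sum_congr rfl fun x _ => sum_congr rfl fun t _ =>
            sum_congr rfl fun j _ => ?_
          rw [← e_sub, mul_assoc, ← e_add]
          congr 2; push_cast; ring
  have h2 : (Q : ℝ) * ‖∑ x ∈ A, ∑ y ∈ B, F (y - x)‖ ≤
      ∑ j ∈ range Q, H * ((‖a j‖ ^ 2 + ‖b j‖ ^ 2) / 2) := by
    rw [← Complex.norm_natCast, ← norm_mul, h1]
    refine (norm_sum_le _ _).trans (sum_le_sum fun j _ => ?_)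
    rw [norm_mul, norm_mul, Complex.norm_conj]
    refine mul_le_mul (hH _) ?_ (by positivity) hH0
    nlinarith [sq_nonneg (‖a j‖ - ‖b j‖)]
  rw [← mul_sum, ← sum_div, sum_add_distrib, parseval hQ A (fun x hx y hy => by
      have := abs_le.mp (hA x hx); have := abs_le.mp (hA y hy); rw [abs_lt]; omega),
    parseval hQ B (fun x hx y hy => by
      have := abs_le.mp (hB x hx); have := abs_le.mp (hB y hy); rw [abs_lt]; omega)] at h2
  refine le_of_mul_le_mul_left (h2.trans (le_of_eq ?_)) hQ0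
  ring

end Crest.Agent.N41.Pair
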