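import Crest.Agent.N41.Pair.Wt

/-!
# Row 41, Pair Lemma (helper5): the proper prime powers are negligible.
-/

set_option autoImplicit false

open Finset Polynomial
open scoped BigOperators

namespace Crest.Agent.N41.Pair

lemma cw_nonneg (pr : Bool) (d : ℕ) : 0 ≤ cw pr d := by
  unfold cw; split_ifs <;> positivity

lemma cw_le_one (pr : Bool) (d : ℕ) : cw pr d ≤ 1 := by
  unfold cw
  split_ifs
  · exact div_le_one_of_le₀ (by exact_mod_cast Nat.totient_le d) (Nat.cast_nonneg _)
  · exact le_rfl

theorem bad (pr : Bool) : BadStmt pr := by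
  obtain ⟨C, hC⟩ := Chebyshev.psi_sub_theta_le_mul_sqrt
  refine ⟨max C 1, le_max_right _ _, fun r d a b X hrd ha hab hX => ?_⟩
  cases pr with
  | false => simp
  | true =>
    have hd : (0 : ℤ) < d := by omega
    have hcast : ∀ m : ℤ, 0 ≤ m → ((((r : ℤ) + d * m).toNat : ℕ) : ℤ) = r + d * m := fun m hm =>
      Int.toNat_of_nonneg (by positivity)
    have h1 : ∀ m : ℤ, ‖phi true r d m‖ ≤
        ArithmeticFunction.vonMangoldt ((r : ℤ) + d * m).toNat := fun m => by
      have h0 : 0 ≤ ArithmeticFunction.vonMangoldt ((r : ℤ) + d * m).toNat :=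
        ArithmeticFunction.vonMangoldt_nonneg
      rw [phi, Complex.norm_real, wt, if_pos rfl,
        Real.norm_of_nonneg (mul_nonneg (cw_nonneg _ _) h0)]
      exact mul_le_of_le_one_left h0 (cw_le_one _ _)
    refine (sum_le_sum fun m _ => h1 m).trans ?_
    rw [← sum_image (f := fun n : ℕ => ArithmeticFunction.vonMangoldt n)
      (g := fun m : ℤ => ((r : ℤ) + d * m).toNat)]
    · refine le_trans ?_ ((hC X).trans
        (mul_le_mul_of_nonneg_right (le_max_left _ _) (Real.sqrt_nonneg _)))
      rw [Chebyshev.psi_sub_theta_eq_sum_not_prime]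
      refine sum_le_sum_of_subset_of_nonneg (fun n hn => ?_)
        fun _ _ _ => ArithmeticFunction.vonMangoldt_nonneg
      obtain ⟨m, hm, rfl⟩ := mem_image.1 hn
      obtain ⟨h2, -, h3⟩ := mem_filter.1 hm
      obtain ⟨h4, h5⟩ := mem_Ico.1 h2
      have h6 := hcast m (by omega)
      have h7 : (d : ℤ) * 1 ≤ d * m := by gcongr; omega
      have h8 : (d : ℤ) * m ≤ d * b := by gcongr
      refine mem_filter.2 ⟨mem_Ioc.2 ⟨by omega, Nat.le_floor (le_trans ?_ hX)⟩, h3⟩
      have h9 : ((((r : ℤ) + d * m).toNat : ℕ) : ℤ) ≤ r + d * b := by omega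
      exact_mod_cast h9
    · intro m hm m' hm' he
      have h1 := hcast m (by have := (mem_Ico.1 (mem_filter.1 hm).1).1; omega)
      have h2 := hcast m' (by have := (mem_Ico.1 (mem_filter.1 hm').1).1; omega)
      simp only at he
      rw [he, h2] at h1
      exact (mul_left_cancel₀ hd.ne' (add_left_cancel h1)).symm

end Crest.Agent.N41.Pair
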