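import Crest.Agent.N41.Pair.Wt

/-!
# Row 41, Pair Lemma (helper98): equidistribution of the weight in residue classes
-/

set_option autoImplicit false

open Finset Polynomial
open scoped BigOperators

namespace Crest.Agent.N41.Pair

lemma one_le_log_four_mul {d Q : ℕ} (hd : 1 ≤ d) (hQ : Q ≠ 0) :
    1 ≤ Real.log (4 * ((d : ℝ) * Q)) := by
  have h1 : (1 : ℝ) ≤ d := by exact_mod_cast hd
  have h2 : (1 : ℝ) ≤ Q := by exact_mod_cast Nat.pos_of_ne_zero hQ
  have h3 : (1 : ℝ) ≤ (d : ℝ) * Q := one_le_mul_of_one_le_of_one_le h1 h2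
  have h4 := Real.log_le_log (x := 2 ^ 2) (y := 4 * ((d : ℝ) * Q)) (by norm_num) (by linarith)
  rw [Real.log_pow] at h4
  have := Real.log_two_gt_d9
  push_cast at h4
  linarith

lemma one_le_X {r d : ℕ} {a x : ℤ} {X : ℝ} (hd : 1 ≤ d) (ha : 1 ≤ a) (hx : a ≤ x)
    (hX : (r : ℝ) + d * x ≤ X) : 1 ≤ X := by
  have h1 : (1 : ℝ) ≤ d := by exact_mod_cast hd
  have h2 : (1 : ℝ) ≤ x := by exact_mod_cast ha.trans hx
  have h3 : (0 : ℝ) ≤ r := Nat.cast_nonneg r
  nlinarith

theorem eq_false : EqStmt false := by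
  refine ⟨1 / 2, 1, by norm_num, le_rfl, le_rfl, ?_⟩
  intro ι _ _ q _ r d Q a x ρ X _ _ hrd _ hQ _ ha hx hX
  have hd : 1 ≤ d := by omega
  have h1 : dens q (fun i => iot false r d (q i)) Q ρ = 1 := by simp [dens, iot]
  have h2 : ∀ m, phi false r d m = 1 := fun m => by simp [phi, cw, wt]
  simp only [h1, h2, sum_const, nsmul_eq_mul, mul_one, one_mul]
  have h3 := card_class' hQ hx ρ
  rw [← Real.norm_eq_abs, ← Complex.norm_real] at h3
  push_cast at h3
  refine h3.trans ?_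
  exact one_le_mul_of_one_le_of_one_le (Real.one_le_rpow (one_le_X hd ha hx hX) (by norm_num))
    (one_le_log_four_mul hd hQ)

lemma totient_real (n : ℕ) : (n.totient : ℝ) = n * ∏ p ∈ n.primeFactors, (1 - (p : ℝ)⁻¹) := by
  have := congrArg (fun z : ℚ => (z : ℝ)) (Nat.totient_eq_mul_prod_factors n)
  simpa using this

lemma totient_mul_eq {ι : Type} [Fintype ι] [DecidableEq ι] (q : ι → ℕ)
    (hq : ∀ i, (q i).Prime) (hinj : Function.Injective q) {d Q : ℕ} (hd : 1 ≤ d) (hQ : Q ≠ 0)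
    (hout : ∀ p : ℕ, p.Prime → p ∣ Q → p ∉ Set.range q → p ∣ d) :
    ((d * Q).totient : ℝ) = d.totient * Q *
      ∏ i ∈ univ.filter (fun i => q i ∣ Q ∧ ¬ q i ∣ d), (1 - (q i : ℝ)⁻¹) := by
  have h1 : (d * Q).primeFactors =
      d.primeFactors ∪ (univ.filter (fun i => q i ∣ Q ∧ ¬ q i ∣ d)).image q := by
    rw [Nat.primeFactors_mul (by omega) hQ]
    ext p
    simp only [mem_union, Nat.mem_primeFactors, mem_image, mem_filter, mem_univ, true_and]
    constructor
    · rintro (h | ⟨hp, hpQ, _⟩)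
      · exact Or.inl h
      · by_cases hpd : p ∣ d
        · exact Or.inl ⟨hp, hpd, by omega⟩
        · have : p ∈ Set.range q := by
            by_contra h
            exact hpd (hout p hp hpQ h)
          obtain ⟨i, rfl⟩ := this
          exact Or.inr ⟨i, ⟨hpQ, hpd⟩, rfl⟩
    · rintro (h | ⟨i, hi, rfl⟩)
      · exact Or.inl h
      · exact Or.inr ⟨hq i, hi.1, hQ⟩
  have h2 : Disjoint d.primeFactors ((univ.filter (fun i => q i ∣ Q ∧ ¬ q i ∣ d)).image q) := by
    rw [disjoint_left]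
    intro p hp hp'
    obtain ⟨i, hi, rfl⟩ := mem_image.1 hp'
    exact (mem_filter.1 hi).2.2 (Nat.dvd_of_mem_primeFactors hp)
  rw [totient_real, totient_real d, h1, prod_union h2, prod_image fun i _ j _ h => hinj h]
  push_cast; ring

/-- the von Mangoldt function on multiples of a prime -/
lemma sum_vonMangoldt_dvd_le {p B : ℕ} (hp : p.Prime) (S : Finset ℕ)
    (hS : ∀ n ∈ S, p ∣ n ∧ n ≤ B) (hB : 1 ≤ B) :
    ∑ n ∈ S, ArithmeticFunction.vonMangoldt n ≤ Real.log B := by
  have h1 : ∑ n ∈ S, ArithmeticFunction.vonMangoldt n =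
      ∑ n ∈ S.filter IsPrimePow, ArithmeticFunction.vonMangoldt n := by
    rw [sum_filter]
    refine sum_congr rfl fun n _ => ?_
    split_ifs with h
    · rfl
    · exact ArithmeticFunction.vonMangoldt_eq_zero_iff.2 h
  have h2 : S.filter IsPrimePow ⊆ (p ^ Nat.log p B).divisors := by
    intro n hn
    obtain ⟨hn1, hn2⟩ := mem_filter.1 hn
    obtain ⟨l, k, hl, hk, rfl⟩ := (isPrimePow_nat_iff n).1 hn2
    obtain rfl : p = l := (Nat.prime_dvd_prime_iff_eq hp hl).1 (hp.dvd_of_dvd_pow (hS _ hn1).1)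
    exact Nat.mem_divisors.2 ⟨pow_dvd_pow _ (Nat.le_log_of_pow_le hp.one_lt (hS _ hn1).2),
      pow_ne_zero _ hp.ne_zero⟩
  rw [h1]
  refine (sum_le_sum_of_subset_of_nonneg h2 fun _ _ _ =>
    ArithmeticFunction.vonMangoldt_nonneg).trans ?_
  rw [ArithmeticFunction.vonMangoldt_sum]
  refine Real.log_le_log (by exact_mod_cast pow_pos hp.pos _) ?_
  exact_mod_cast Nat.pow_log_le_self p (by omega : B ≠ 0)

theorem eq_true (hP : PsiAP) : EqStmt true := by
  obtain ⟨δ₀, C₀, hδ₀, hC₀, hP⟩ := hP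
  refine ⟨min δ₀ (1 / 2), 2 * C₀ + 2, by positivity, min_le_right _ _, by linarith, ?_⟩
  intro ι _ _ q _ r d Q a x ρ X hq hinj hrd hcop hQ hout ha hx hX
  have hd : 1 ≤ d := by omega
  have hX1 := one_le_X hd ha hx hX
  have hlog := one_le_log_four_mul hd hQ
  have hδ1 := min_le_left δ₀ (1 / 2)
  have hδ2 := min_le_right δ₀ (1 / 2)
  set δ := min δ₀ (1 / 2) with hδ
  have hXp : 1 ≤ X ^ (1 - δ) := Real.one_le_rpow hX1 (by linarith)
  have hd0 : (0 : ℝ) < d := by exact_mod_cast hd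
  have hQ0 : (0 : ℝ) < Q := by exact_mod_cast Nat.pos_of_ne_zero hQ
  have hcw0 : 0 ≤ cw true d := by simp only [cw, if_true]; positivity
  have hcw1 : cw true d ≤ 1 := by
    simp only [cw, if_true]
    rw [div_le_one hd0]; exact_mod_cast Nat.totient_le d
  set ρ' : ℕ := r + d * (ρ % Q).toNat with hρ'
  set A : ℕ := r + d * a.toNat - 1 with hA
  set B : ℕ := r + d * x.toNat - 1 with hB
  have haN : ((a.toNat : ℕ) : ℤ) = a := Int.toNat_of_nonneg (by omega)
  have hxN : ((x.toNat : ℕ) : ℤ) = x := Int.toNat_of_nonneg (by omega)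
  have ha1 : 1 ≤ d * a.toNat := Nat.mul_pos hd (by omega)
  have hax : d * a.toNat ≤ d * x.toNat := Nat.mul_le_mul_left d (by omega)
  have hAB : A ≤ B := by omega
  have hAR : (A : ℝ) = r + d * a - 1 := by
    have : (A : ℤ) = r + d * a - 1 := by rw [hA, Nat.cast_sub (by omega)]; push_cast; rw [haN]
    exact_mod_cast this
  have hBR : (B : ℝ) = r + d * x - 1 := by
    have : (B : ℤ) = r + d * x - 1 := by rw [hB, Nat.cast_sub (by omega)]; push_cast; rw [hxN]
    exact_mod_cast this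
  have hBX : (B : ℝ) ≤ X := by linarith
  set T : ℝ := ∑ n ∈ (Ioc A B).filter (fun n => n ≡ ρ' [MOD d * Q]),
    ArithmeticFunction.vonMangoldt n with hT
  have hsum : ∑ m ∈ (Ico a x).filter (fun m => (Q : ℤ) ∣ m - ρ), phi true r d m =
      ((cw true d * T : ℝ) : ℂ) := by
    rw [hT, mul_sum, Complex.ofReal_sum]
    exact reindex hd hQ ha hx ρ fun n => ((cw true d * wt true n : ℝ) : ℂ)
  have hcast : ∀ i, q i ∣ Q → ((ρ' : ℕ) : ZMod (q i)) = (r : ZMod (q i)) + d * (ρ : ZMod (q i)) := by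
    intro i hi
    have h1 : (((ρ % Q).toNat : ℕ) : ℤ) = ρ % Q :=
      Int.toNat_of_nonneg (Int.emod_nonneg ρ (by exact_mod_cast hQ))
    have h2 : (((ρ % Q).toNat : ℕ) : ZMod (q i)) = (ρ : ZMod (q i)) := by
      rw [← Int.cast_natCast, h1, ZMod.intCast_eq_intCast_iff]
      exact (Int.mod_modEq ρ Q).of_dvd (by exact_mod_cast hi)
    rw [hρ']; push_cast; rw [h2]
  rw [hsum]
  by_cases hco : Nat.Coprime ρ' (d * Q)
  · have hbd : ∀ y : ℕ, (y : ℝ) ≤ X →
        |∑ n ∈ (Ioc 0 y).filter (fun n => n ≡ ρ' [MOD d * Q]), ArithmeticFunction.vonMangoldt n -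
          (y : ℝ) / ((d * Q).totient : ℝ)| ≤ C₀ * X ^ (1 - δ) * Real.log (4 * ((d : ℝ) * Q)) := by
      intro y hy
      rcases Nat.eq_zero_or_pos y with rfl | hy0
      · simp only [Ioc_self, filter_empty, sum_empty, Nat.cast_zero, zero_div, sub_self, abs_zero]
        positivity
      have hy1 : (1 : ℝ) ≤ y := by exact_mod_cast hy0
      refine (hP (d * Q) ρ' y (Nat.mul_pos hd (Nat.pos_of_ne_zero hQ)) hco).trans ?_
      have h1 : (y : ℝ) ^ (1 - δ₀) ≤ X ^ (1 - δ) :=
        (Real.rpow_le_rpow_of_exponent_le hy1 (by linarith)).trans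
          (Real.rpow_le_rpow (by linarith) hy (by linarith))
      have h2 : (0 : ℝ) < (d : ℝ) * Q := by positivity
      have h3 : Real.log (2 * ((d * Q : ℕ) : ℝ)) ≤ Real.log (4 * ((d : ℝ) * Q)) := by
        push_cast; exact Real.log_le_log (by positivity) (by linarith)
      have h4 : 0 ≤ Real.log (2 * ((d * Q : ℕ) : ℝ)) := by
        have : (1 : ℝ) ≤ ((d * Q : ℕ) : ℝ) := by
          exact_mod_cast Nat.mul_pos hd (Nat.pos_of_ne_zero hQ)
        exact Real.log_nonneg (by linarith)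
      gcongr
    have hsplit : T = ∑ n ∈ (Ioc 0 B).filter (fun n => n ≡ ρ' [MOD d * Q]),
        ArithmeticFunction.vonMangoldt n - ∑ n ∈ (Ioc 0 A).filter (fun n => n ≡ ρ' [MOD d * Q]),
        ArithmeticFunction.vonMangoldt n := by
      rw [hT, sum_filter, sum_filter, sum_filter, eq_sub_iff_add_eq, add_comm]
      exact sum_Ioc_consecutive _ (Nat.zero_le A) hAB
    set R : ℝ := ∏ i ∈ univ.filter (fun i => q i ∣ Q ∧ ¬ q i ∣ d), (1 - (q i : ℝ)⁻¹) with hR
    have hq2 : ∀ i, (2 : ℝ) ≤ q i := fun i => by exact_mod_cast (hq i).two_le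
    have hR0 : 0 < R := prod_pos fun i _ => by
      have := hq2 i
      rw [sub_pos]; exact inv_lt_one_of_one_lt₀ (by linarith)
    have hdens : dens q (fun i => iot true r d (q i)) Q ρ = ((R⁻¹ : ℝ) : ℂ) := by
      rw [dens, hR, ← prod_inv_distrib, ← Complex.ofReal_prod, ← filter_filter,
        prod_filter (s := univ.filter fun i => q i ∣ Q)]
      congr 1
      refine prod_congr rfl fun i hi => ?_
      have hi' := (mem_filter.1 hi).2
      simp only [iot, true_and]
      split_ifs with h1 h2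
      · rfl
      · exfalso
        rw [← hcast i hi', ZMod.natCast_eq_zero_iff] at h2
        have h3 := Nat.dvd_gcd h2 (Dvd.dvd.mul_left hi' d)
        rw [hco] at h3
        exact (hq i).one_lt.ne' (Nat.dvd_one.1 h3)
      · have := hq2 i
        have h4 : (q i : ℝ) - 1 ≠ 0 := by linarith
        field_simp
    have htot := totient_mul_eq q hq hinj hd hQ fun p h1 h2 h3 => hout p h1 h2 h3 rfl
    rw [← hR] at htot
    have hφ : (0 : ℝ) < d.totient := by exact_mod_cast Nat.totient_pos.2 hd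
    have hmain : ((x : ℝ) - a) / Q * R⁻¹ = cw true d *
        ((B : ℝ) / ((d * Q).totient : ℝ) - (A : ℝ) / ((d * Q).totient : ℝ)) := by
      rw [htot, hAR, hBR]
      simp only [cw, if_true]
      field_simp
      ring
    have e1 : ((cw true d * T : ℝ) : ℂ) - ((x : ℂ) - a) / Q * ((R⁻¹ : ℝ) : ℂ) =
        ((cw true d * T - ((x : ℝ) - a) / Q * R⁻¹ : ℝ) : ℂ) := by push_cast; ring
    rw [hdens, e1, Complex.norm_real, Real.norm_eq_abs, hmain, ← mul_sub, abs_mul,
      abs_of_nonneg hcw0, hsplit]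
    have h1 := abs_le.1 (hbd B hBX)
    have h2 := abs_le.1 (hbd A ((Nat.cast_le.2 hAB).trans hBX))
    refine (mul_le_of_le_one_left (abs_nonneg _) hcw1).trans ?_
    have h3 : 0 ≤ X ^ (1 - δ) * Real.log (4 * ((d : ℝ) * Q)) := by positivity
    rw [abs_le]; constructor <;> nlinarith
  · obtain ⟨p, hp, hp1, hp2⟩ := Nat.Prime.not_coprime_iff_dvd.1 hco
    have hpd : ¬ p ∣ d := by
      intro h
      have h1 : p ∣ r := (Nat.dvd_add_left (Dvd.dvd.mul_right h _)).1 hp1
      have h3 := Nat.dvd_gcd h1 h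
      rw [hcop rfl] at h3
      exact hp.one_lt.ne' (Nat.dvd_one.1 h3)
    have hpQ : p ∣ Q := ((Nat.Prime.dvd_mul hp).1 hp2).resolve_left hpd
    obtain ⟨i, rfl⟩ : p ∈ Set.range q := by
      by_contra h
      exact hpd (hout p hp hpQ h rfl)
    have hdens : dens q (fun i => iot true r d (q i)) Q ρ = 0 := by
      refine prod_eq_zero (i := i) (mem_filter.2 ⟨mem_univ _, hpQ⟩) ?_
      have h1 : (r : ZMod (q i)) + d * (ρ : ZMod (q i)) = 0 := by
        rw [← hcast i hpQ, ZMod.natCast_eq_zero_iff]; exact hp1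
      simp [iot, hpd, h1]
    have hT0 : 0 ≤ T := sum_nonneg fun _ _ => ArithmeticFunction.vonMangoldt_nonneg
    have hT1 : T ≤ 2 * X ^ (1 - δ) := by
      rcases Nat.eq_zero_or_pos B with hB0 | hB0
      · rw [hT, hB0, Ioc_eq_empty (by omega)]; simp; positivity
      have h1 := sum_vonMangoldt_dvd_le (B := B) hp
        ((Ioc A B).filter (fun n => n ≡ ρ' [MOD d * Q])) (fun n hn => by
          rw [mem_filter, mem_Ioc] at hn
          exact ⟨((hn.2.of_dvd hp2).dvd_iff dvd_rfl).2 hp1, hn.1.2⟩) hB0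
      have h2 : Real.log B ≤ Real.log X := Real.log_le_log (by exact_mod_cast hB0) hBX
      have h3 := Real.log_le_rpow_div (x := X) (ε := 1 / 2) (by linarith) (by norm_num)
      have h4 : X ^ (1 / 2 : ℝ) ≤ X ^ (1 - δ) :=
        Real.rpow_le_rpow_of_exponent_le hX1 (by linarith)
      linarith
    rw [hdens, mul_zero, sub_zero, Complex.norm_real, Real.norm_eq_abs,
      abs_of_nonneg (by positivity)]
    have h5 : cw true d * T ≤ T := mul_le_of_le_one_left hT0 hcw1
    have h6 : X ^ (1 - δ) ≤ X ^ (1 - δ) * Real.log (4 * ((d : ℝ) * Q)) :=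
      le_mul_of_one_le_right (by positivity) hlog
    have h7 : 0 ≤ C₀ * (X ^ (1 - δ) * Real.log (4 * ((d : ℝ) * Q))) := by positivity
    nlinarith

end Crest.Agent.N41.Pair
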