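import Crest.Agent.N41.Pair.Wt
import Crest.Agent.N41.ES.Lift

/-!
# Row 41, Pair Lemma, part 7 (helper95): the concrete local data, the truncated kernel, the pair
sum with an exceptional set, and the minor arc input.
-/

set_option autoImplicit false

open Finset Polynomial
open scoped BigOperators

namespace Crest.Agent.N41.Pair

open Crest.Agent.N41.Exp
open Crest.Agent.N41.ES (qq es avg proj red)

lemma es_prod {ι : Type} [Fintype ι] [DecidableEq ι] {V : ι → Type} [∀ i, Fintype (V i)]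
    [∀ i, Nonempty (V i)] (f : ∀ i, V i → ℝ) (hf : ∀ i, 𝔼 t, f i t = 1) (T : Finset ι)
    (x : ∀ i, V i) : es T (fun z => ∏ i, f i (z i)) x = ∏ i ∈ T, (f i (x i) - 1) := by
  have h1 : ∀ U : Finset ι, avg Uᶜ (fun z => ∏ i, f i (z i)) x = ∏ i ∈ U, f i (x i) := by
    intro U
    have := ES.expect_prod (V := V) fun i t => if i ∈ U then f i (x i) else f i t
    unfold avg
    rw [← Fintype.prod_ite_mem U]
    refine Eq.trans (expect_congr rfl fun y _ => prod_congr rfl fun i _ => ?_)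
      (this.trans (prod_congr rfl fun i _ => ?_))
    · by_cases hi : i ∈ U <;> simp [Finset.piecewise, hi]
    · by_cases hi : i ∈ U
      · simp only [hi, if_true]; exact expect_const univ_nonempty _
      · simp only [hi, if_false]; exact hf i
  simp only [es, h1, sub_eq_add_neg]
  rw [prod_add]
  exact sum_congr rfl fun U _ => by rw [prod_const, mul_comm]

lemma proj_eq_ka {ι : Type} [Fintype ι] [DecidableEq ι] (q : ι → ℕ) [∀ i, NeZero (q i)]
    (P : ℤ[X]) (π : ∀ i, ZMod (q i) → ℝ) (hπ : ∀ i, 𝔼 n, π i n = 1) (F : Finset (Finset ι))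
    (t : ℤ) : ((proj F (fun z => ∏ i, push (q i) P (π i) (z i)) (red q t) : ℝ) : ℂ) =
      ∑ S ∈ F, ka q P π S t := by
  unfold proj
  rw [Complex.ofReal_sum]
  refine sum_congr rfl fun S _ => ?_
  rw [es_prod (fun i => push (q i) P (π i)) (fun i => by
    rw [← hπ i, expect_eq_sum_div_card, expect_eq_sum_div_card]
    congr 1
    exact sum_fiberwise univ (evz (q i) P) (π i)), Complex.ofReal_prod]
  rfl

/-- pair sums with an exceptional set -/
lemma pair_abs (I : Finset ℤ) (P : ℤ → ℤ) (W K : ℤ → ℂ) (u v : ℤ) (A B : Finset ℤ)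
    (bad : ℤ → Prop) [DecidablePred bad] {H E : ℝ}
    (hH : ∀ α : ℝ, ‖∑ m ∈ I, W m * e (α * P m) - ∑ t ∈ Ico u v, K t * e (α * t)‖ ≤ H)
    (hAB : ∀ x ∈ A, ∀ y ∈ B, u ≤ y - x ∧ y - x < v)
    (hno : ∀ x ∈ A, ∀ y ∈ B, ∀ m ∈ I, ¬ bad m → y - x ≠ P m)
    (hE : ∑ m ∈ I.filter bad, ‖W m‖ ≤ E) :
    ‖∑ x ∈ A, ∑ y ∈ B, K (y - x)‖ ≤ H * ((#A + #B) / 2) + #A * E := by
  classical
  set Y : ℤ → ℂ := fun t => ∑ m ∈ I.filter (fun m => P m = t), W m with hY
  set s := Ico u v ∪ I.image P with hs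
  have h1 := pair_le (fun t => Y t - if t ∈ Ico u v then K t else 0) s A B (by
    intro t ht
    rw [hs, mem_union, not_or] at ht
    simp only [if_neg ht.1, sub_zero, hY]
    exact sum_eq_zero fun m hm => absurd
      (mem_image.mpr ⟨m, (mem_filter.mp hm).1, (mem_filter.mp hm).2⟩) ht.2) (H := H) (by
    intro α
    refine le_trans (le_of_eq ?_) (hH α)
    simp only [sub_mul, sum_sub_distrib, ite_mul, zero_mul]
    congr 2
    · rw [← sum_fiberwise_of_maps_to (s := I) (t := s) (g := P)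
        (fun m hm => mem_union_right _ (mem_image_of_mem P hm))]
      refine sum_congr rfl fun t _ => ?_
      rw [hY, sum_mul]
      exact sum_congr rfl fun m hm => by rw [(mem_filter.mp hm).2]
    · rw [← sum_filter, filter_mem_eq_inter, inter_eq_right.mpr subset_union_left])
  have h2 : ∑ x ∈ A, ∑ y ∈ B, K (y - x) = ∑ x ∈ A, ∑ y ∈ B, Y (y - x) -
      ∑ x ∈ A, ∑ y ∈ B, (Y (y - x) - if y - x ∈ Ico u v then K (y - x) else 0) := by
    rw [← sum_sub_distrib]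
    refine sum_congr rfl fun x hx => ?_
    rw [← sum_sub_distrib]
    refine sum_congr rfl fun y hy => ?_
    rw [if_pos (mem_Ico.mpr (hAB x hx y hy))]; ring
  have h3 : ∀ x ∈ A, ‖∑ y ∈ B, Y (y - x)‖ ≤ E := by
    intro x hx
    have e1 : ∑ y ∈ B, Y (y - x) = ∑ m ∈ I.filter (fun m => x + P m ∈ B), W m := by
      rw [← sum_fiberwise_of_maps_to (s := I.filter (fun m => x + P m ∈ B)) (t := B)
        (g := fun m => x + P m) (fun m hm => (mem_filter.mp hm).2)]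
      refine sum_congr rfl fun y hy => sum_congr ?_ fun _ _ => rfl
      ext m
      simp only [mem_filter]
      constructor
      · rintro ⟨h1, h2⟩
        exact ⟨⟨h1, by rw [h2]; simpa using hy⟩, by omega⟩
      · rintro ⟨⟨h1, _⟩, h2⟩
        exact ⟨h1, by omega⟩
    rw [e1]
    refine (norm_sum_le _ _).trans (le_trans
      (sum_le_sum_of_subset_of_nonneg (fun m hm => ?_) fun _ _ _ => norm_nonneg _) hE)
    obtain ⟨h4, h5⟩ := mem_filter.mp hm
    refine mem_filter.mpr ⟨h4, ?_⟩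
    by_contra hb
    exact hno x hx _ h5 m h4 hb (by ring)
  rw [h2, add_comm]
  refine (norm_sub_le _ _).trans (add_le_add ?_ h1)
  refine (norm_sum_le _ _).trans ((sum_le_sum h3).trans (le_of_eq ?_))
  rw [sum_const, nsmul_eq_mul]

lemma iot_facts (pr : Bool) (r d : ℕ) {p : ℕ} [NeZero p] (hp : p.Prime) :
    ∑ n, iot pr r d p n = p ∧ (∀ n, iot pr r d p n = 0 ∨ 1 ≤ iot pr r d p n) ∧
      (∀ n, |iot pr r d p n| ≤ 2) ∧ ∑ n, |iot pr r d p n - 1| ≤ 2 := by
  have : Fact p.Prime := ⟨hp⟩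
  have hp2 : (2 : ℝ) ≤ p := by exact_mod_cast hp.two_le
  have hp1 : (0 : ℝ) < p - 1 := by linarith
  have h1 : (1 : ℝ) ≤ p / (p - 1) := by rw [le_div_iff₀ hp1]; linarith
  have h2 : (p : ℝ) / (p - 1) ≤ 2 := by rw [div_le_iff₀ hp1]; linarith
  by_cases h : pr = true ∧ ¬ p ∣ d
  · have hd : (d : ZMod p) ≠ 0 := fun h0 => h.2 ((ZMod.natCast_eq_zero_iff _ _).mp h0)
    have e1 : ∀ n : ZMod p, iot pr r d p n =
        if n = -(r : ZMod p) / d then 0 else (p : ℝ) / (p - 1) := by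
      intro n
      unfold iot
      rw [if_pos h]
      refine if_congr ?_ rfl rfl
      rw [eq_div_iff hd]
      constructor <;> intro h <;> linear_combination h
    have e2 : ∀ u v : ℝ, ∑ n : ZMod p, (if n = -(r : ZMod p) / d then u else v) =
        u + (p - 1) * v := by
      intro u v
      have : ∀ n : ZMod p, (if n = -(r : ZMod p) / d then u else v) =
          v + if n = -(r : ZMod p) / d then u - v else 0 := fun n => by split_ifs <;> ring
      simp only [this, sum_add_distrib, sum_const, card_univ, ZMod.card, sum_ite_eq', mem_univ,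
        if_true, nsmul_eq_mul]
      ring
    simp only [e1]
    refine ⟨by rw [e2]; field_simp; ring, fun n => ?_, fun n => ?_, ?_⟩
    · split_ifs
      · exact Or.inl rfl
      · exact Or.inr h1
    · split_ifs
      · simp
      · rw [abs_of_nonneg (by linarith)]; exact h2
    · simp only [ite_sub, apply_ite abs]
      rw [e2, abs_of_nonneg (sub_nonneg.mpr h1)]
      refine le_of_eq ?_
      field_simp; norm_num
  · have e1 : ∀ n : ZMod p, iot pr r d p n = 1 := fun n => by unfold iot; rw [if_neg h]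
    simp [e1]

/-- the local hypotheses hold -/
theorem ld_of (hC : CompleteStmt) (k : ℕ) {κ : ℝ} (hκ : 0 < κ) : ∃ (p₀ : ℕ) (δ : ℝ), 0 < δ ∧
    δ ≤ 1 ∧ ∀ (pr : Bool) (ι : Type) (q : ι → ℕ) [∀ i, NeZero (q i)] (P : ℤ[X]) (r d : ℕ)
      (π : ∀ i, ZMod (q i) → ℝ), (∀ i, (q i).Prime) → Function.Injective q → (∀ i, p₀ < q i) →
      P.natDegree ≤ k → (∀ i, ∃ j, 1 ≤ j ∧ ¬ (q i : ℤ) ∣ P.coeff j) → (∀ i n, 0 ≤ π i n) →
      (∀ i, 𝔼 n, π i n = 1) → (∀ i n, π i n ≠ 0 → n ∈ adm pr (q i) r d P) →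
      (∀ i, OpBd (push (q i) P (π i)) ((q i : ℝ) ^ (-κ))) →
      LD q P π (fun i => iot pr r d (q i)) δ := by
  obtain ⟨δ₁, p₁, hδ₁, hC⟩ := hC k
  set δ : ℝ := min κ (min δ₁ 1) / 2 with hδ
  have hδ0 : 0 < δ := by positivity
  have hδκ : 2 * δ ≤ κ := by rw [hδ]; linarith [min_le_left κ (min δ₁ 1)]
  have hδ1 : 2 * δ ≤ δ₁ := by
    rw [hδ]; linarith [min_le_right κ (min δ₁ 1), min_le_left δ₁ 1]
  have hδ2 : 2 * δ ≤ 1 := by
    rw [hδ]; linarith [min_le_right κ (min δ₁ 1), min_le_right δ₁ 1]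
  refine ⟨max p₁ (max k ⌈(8 + 4 * k : ℝ) ^ (1 / δ)⌉₊), δ, hδ0, by linarith, ?_⟩
  intro pr ι q _ P r d π hp hinj hp₀ hP hc h0 h1 hadm hop
  have hsum : ∀ i, ∑ n, π i n = q i := fun i => by
    have := h1 i
    have hq : (q i : ℝ) ≠ 0 := by exact_mod_cast (hp i).ne_zero
    rw [expect_eq_sum_div_card, card_univ, ZMod.card, div_eq_iff hq, one_mul] at this
    exact this
  have hsupp : ∀ i n, π i n ≠ 0 →
      iot pr r d (q i) n ≠ 0 ∧ evz (q i) (derivative P) n ≠ 0 := by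
    intro i n hn
    obtain ⟨h2, h3⟩ := (mem_filter.mp (hadm i n hn)).2
    refine ⟨?_, h2⟩
    have hp2 : (2 : ℝ) ≤ q i := by exact_mod_cast (hp i).two_le
    unfold iot
    split_ifs with h4 h5
    · exact absurd h5 (h3 h4.1)
    · exact (div_pos (by linarith) (by linarith)).ne'
    · exact one_ne_zero
  refine ⟨hp, hinj, h0, hsum, fun i => (iot_facts pr r d (hp i)).1,
    fun i => (iot_facts pr r d (hp i)).2.1, hsupp, fun i j a hj ha => ?_⟩
  have hpi := hp i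
  obtain ⟨hq1, hq2⟩ := max_lt_iff.mp (hp₀ i)
  obtain ⟨hq2, hq3⟩ := max_lt_iff.mp hq2
  have hq0 : (0 : ℝ) < q i := by exact_mod_cast hpi.pos
  have hq1' : (1 : ℝ) ≤ q i := by exact_mod_cast hpi.one_le
  have hA : ‖mean (q i ^ (j + 1))
      (fun m => (π i (m : ZMod (q i)) : ℂ) * ch a (q i ^ j) (P.eval m))‖ ≤ 2 * (q i : ℝ) ^ (-κ) := by
    rcases hj.eq_or_lt with rfl | hj
    · rw [pow_one, ((per_zmod (q i) fun x => (π i x : ℂ)).mul ((per_ch a _).poly P)).mean_dvd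
        (dvd_pow_self _ (by omega)) (pow_ne_zero _ hpi.ne_zero), ← mean_push (q i) P (π i)
        (per_ch a _)]
      exact norm_fourier_le (by positivity) (hop i) ha
    · rw [hensel hpi hj (pow_dvd_pow (q i) (Nat.le_succ j)) ha P
        (per_zmod (q i) fun x => (π i x : ℂ)) (fun m hm hd' => by
          refine (hsupp i (m : ZMod (q i)) (by exact_mod_cast hm)).2 ?_
          rw [evz_intCast, ZMod.intCast_zmod_eq_zero_iff_dvd]; exact hd'), norm_zero]
      positivity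
  have hσ : ‖mean (q i) (fun m => ch a (q i) (P.eval m))‖ ≤ (q i : ℝ) ^ (-δ₁) := by
    have := hC (q i) P a hpi hq1 hP (hc i) ha
    unfold mean ch
    rw [norm_div, Complex.norm_natCast, div_le_iff₀ hq0, ← Real.rpow_add_one hq0.ne',
      show -δ₁ + 1 = 1 - δ₁ by ring]
    simpa using this
  have hC' := norm_C_le hpi hq2 hj hP (hc i) ha hσ (iot pr r d (q i))
    (iot_facts pr r d hpi).2.2.1 (iot_facts pr r d hpi).2.2.2
  have b1 : (q i : ℝ) ^ (-κ) ≤ (q i : ℝ) ^ (-(2 * δ)) :=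
    Real.rpow_le_rpow_of_exponent_le hq1' (by linarith)
  have b2 : (q i : ℝ) ^ (-δ₁) ≤ (q i : ℝ) ^ (-(2 * δ)) :=
    Real.rpow_le_rpow_of_exponent_le hq1' (by linarith)
  have b3 : (2 + 2 * k : ℝ) / q i ≤ (2 + 2 * k) * (q i : ℝ) ^ (-(2 * δ)) := by
    rw [div_eq_mul_inv, ← Real.rpow_neg_one]
    gcongr
  have b4 : (8 + 4 * k : ℝ) ≤ (q i : ℝ) ^ δ := by
    have h5 : (8 + 4 * k : ℝ) ^ (1 / δ) ≤ q i :=
      (Nat.le_ceil _).trans (by exact_mod_cast hq3.le)
    calc (8 + 4 * k : ℝ) = ((8 + 4 * k : ℝ) ^ (1 / δ)) ^ δ := by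
          rw [← Real.rpow_mul (by positivity), one_div_mul_cancel hδ0.ne', Real.rpow_one]
      _ ≤ _ := by gcongr
  have b5 : (q i : ℝ) ^ δ * (q i : ℝ) ^ (-(2 * δ)) = (q i : ℝ) ^ (-δ) := by
    rw [← Real.rpow_add hq0]; congr 1; ring
  have b6 : (0 : ℝ) ≤ (q i : ℝ) ^ (-(2 * δ)) := by positivity
  nlinarith

lemma cw_facts (pr : Bool) (d : ℕ) : 0 ≤ cw pr d ∧ cw pr d ≤ 1 := by
  unfold cw
  split_ifs
  · exact ⟨by positivity, div_le_one_of_le₀ (by exact_mod_cast Nat.totient_le d) (by positivity)⟩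
  · exact ⟨zero_le_one, le_rfl⟩

/-- the minor arc input -/
lemma minor {pr : Bool} {k C : ℕ} (hW : ∀ (Q : ℝ[X]) (a b m ρ : ℕ) (X δ : ℝ), Q.natDegree ≤ k →
      1 ≤ m → 0 < δ → δ ≤ 1 / 2 → 1 ≤ X → (b : ℝ) ≤ X → δ * Real.log X ≤ 1 →
      δ * X ≤ ‖∑ n ∈ (Ioc a b).filter fun n => n ≡ ρ [MOD m],
        (wt pr n : ℂ) * Exp.e (Q.eval (n : ℝ))‖ →
      ∃ (q : ℕ) (z : ℤ), 1 ≤ q ∧ (q : ℝ) ≤ (1 / δ) ^ C ∧
        |(q : ℝ) * Q.coeff k - z| ≤ (1 / δ) ^ C / X ^ k)
    {P : ℤ[X]} (hP : P.natDegree = k) (hl : 0 < P.leadingCoeff) {r d : ℕ} (hd : 1 ≤ d)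
    {X₀ T R ε α : ℝ} (hT : 2 ≤ T) (hX : 1 ≤ X₀) (hlog : Real.log X₀ ≤ T)
    (hR : T ^ C * P.leadingCoeff ≤ R) (hε : T ^ C / X₀ ^ k * (d : ℝ) ^ k ≤ ε)
    (hα : ¬ Appr α R ε) {Q : ℕ} (hQ : Q ≠ 0) (ρ : ℤ) {a x : ℤ} (ha : 1 ≤ a) (hx : a ≤ x)
    (hxX : (r : ℝ) + d * x ≤ X₀) :
    ‖∑ m ∈ (Ico a x).filter (fun m => (Q : ℤ) ∣ m - ρ), phi pr r d m * e (α * (P.eval m : ℤ))‖ ≤
      X₀ / T := by
  by_contra hcon
  apply hα
  have hT0 : 0 < T := by linarith
  have hd0 : (0 : ℝ) < d := by exact_mod_cast hd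
  set P₁ : ℝ[X] := (P.map (Int.castRingHom ℝ)).comp (Polynomial.C (d : ℝ)⁻¹ * X) with hP₁
  have hdeg : P₁.natDegree ≤ k := by
    refine natDegree_comp_le.trans ?_
    calc _ ≤ k * 1 := Nat.mul_le_mul (natDegree_map_le.trans hP.le)
          ((natDegree_C_mul_le _ _).trans natDegree_X_le)
      _ = k := mul_one k
  set Qt : ℝ[X] := Polynomial.C α * taylor (-(r : ℝ)) P₁ with hQt
  have hev : ∀ m : ℤ, 0 ≤ m → Qt.eval ((((r : ℤ) + d * m).toNat : ℕ) : ℝ) = α * (P.eval m : ℤ) := by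
    intro m hm
    have h1 : ((((r : ℤ) + d * m).toNat : ℕ) : ℝ) = r + d * m := by
      have : ((((r : ℤ) + d * m).toNat : ℕ) : ℤ) = r + d * m := Int.toNat_of_nonneg (by positivity)
      exact_mod_cast congrArg (fun z : ℤ => (z : ℝ)) this
    rw [h1, hQt, eval_mul, eval_C, taylor_eval, hP₁, eval_comp, eval_mul, eval_C, eval_X,
      show (d : ℝ)⁻¹ * (r + d * m + -r) = m by field_simp; ring, eval_intCast_map]
    simp
  have hco : Qt.coeff k = α * (P.leadingCoeff * (d : ℝ)⁻¹ ^ k) := by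
    rw [hQt, coeff_C_mul, taylor_coeff_top hdeg, hP₁, comp_C_mul_X_coeff, coeff_map,
      leadingCoeff, hP]
    simp
  have e1 : ∑ m ∈ (Ico a x).filter (fun m => (Q : ℤ) ∣ m - ρ),
      phi pr r d m * e (α * (P.eval m : ℤ)) = (cw pr d : ℂ) *
      ∑ m ∈ (Ico a x).filter (fun m => (Q : ℤ) ∣ m - ρ),
        (fun n : ℕ => (wt pr n : ℂ) * e (Qt.eval (n : ℝ))) ((r : ℤ) + d * m).toNat := by
    rw [mul_sum]
    refine sum_congr rfl fun m hm => ?_
    have := (mem_Ico.mp (mem_filter.mp hm).1).1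
    simp only [phi]
    rw [hev m (by omega)]
    push_cast; ring
  rw [e1, reindex (r := r) hd hQ ha hx ρ (fun n : ℕ => (wt pr n : ℂ) * e (Qt.eval (n : ℝ))),
    norm_mul, Complex.norm_real, Real.norm_eq_abs,
    abs_of_nonneg (cw_facts pr d).1, not_le] at hcon
  obtain ⟨q, z, hq1, hq2, hq3⟩ := hW Qt (r + d * a.toNat - 1) (r + d * x.toNat - 1) (d * Q)
    (r + d * (ρ % Q).toNat) X₀ (1 / T) ((natDegree_C_mul_le _ _).trans (by rwa [natDegree_taylor]))
    (Nat.mul_pos hd (Nat.pos_of_ne_zero hQ)) (by positivity) (by gcongr) hX (by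
      have h1 : ((r + d * x.toNat - 1 : ℕ) : ℝ) ≤ (r + d * x.toNat : ℕ) := by
        exact_mod_cast Nat.sub_le _ _
      have h2 : ((x.toNat : ℕ) : ℝ) = x := by
        exact_mod_cast congrArg (fun z : ℤ => (z : ℝ)) (Int.toNat_of_nonneg (show 0 ≤ x by omega))
      push_cast at h1
      rw [h2] at h1
      exact h1.trans hxX) (by rw [one_div, inv_mul_le_iff₀ hT0]; linarith) (by
      rw [one_div, inv_mul_eq_div]
      exact hcon.le.trans (mul_le_of_le_one_left (norm_nonneg _) (cw_facts pr d).2))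
  rw [one_div_one_div] at hq2 hq3
  obtain ⟨c, hc⟩ := Int.eq_ofNat_of_zero_le hl.le
  have hc' : (P.leadingCoeff : ℝ) = c := by exact_mod_cast congrArg (fun z : ℤ => (z : ℝ)) hc
  refine ⟨q * c, Nat.mul_pos hq1 (by omega), ?_, z * d ^ k, ?_⟩
  · push_cast
    rw [hc'] at hR
    exact le_trans (by gcongr) hR
  · refine le_trans (le_of_eq ?_) ((mul_le_mul_of_nonneg_right hq3 (by positivity)).trans hε)
    rw [← abs_of_pos (show (0 : ℝ) < (d : ℝ) ^ k by positivity), ← abs_mul, hco, hc']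
    congr 1
    push_cast
    rw [inv_pow]
    field_simp

end Crest.Agent.N41.Pair
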