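import Crest.Agent.N41.Exp.Basic

/-!
# Row 41, Pair Lemma, part 1 (helper95): periodic functions on `ℤ`, their means, independence
for coprime periods, decomposition into residue classes.
-/

set_option autoImplicit false

open Finset

namespace Crest.Agent.N41.Pair

open Crest.Agent.N41.Exp

/-- `f` is periodic modulo `Q` -/
def Per (Q : ℕ) (f : ℤ → ℂ) : Prop := ∀ m n : ℤ, (Q : ℤ) ∣ m - n → f m = f n

/-- the mean over one period -/
noncomputable def mean (Q : ℕ) (f : ℤ → ℂ) : ℂ := (∑ m ∈ range Q, f (m : ℤ)) / Q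

lemma Per.mono {Q Q' : ℕ} {f : ℤ → ℂ} (h : Per Q f) (hQ : Q ∣ Q') : Per Q' f :=
  fun m n hmn => h m n ((Int.natCast_dvd_natCast.mpr hQ).trans hmn)

lemma Per.mul {Q : ℕ} {f g : ℤ → ℂ} (hf : Per Q f) (hg : Per Q g) : Per Q (fun m => f m * g m) :=
  fun m n hmn => by simp only [hf m n hmn, hg m n hmn]

lemma Per.sub {Q : ℕ} {f g : ℤ → ℂ} (hf : Per Q f) (hg : Per Q g) : Per Q (fun m => f m - g m) :=
  fun m n hmn => by simp only [hf m n hmn, hg m n hmn]

lemma per_const (Q : ℕ) (c : ℂ) : Per Q (fun _ => c) := fun _ _ _ => rfl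

lemma per_prod {ι : Type*} {Q : ℕ} (s : Finset ι) {f : ι → ℤ → ℂ} (hf : ∀ i ∈ s, Per Q (f i)) :
    Per Q (fun m => ∏ i ∈ s, f i m) :=
  fun m n hmn => prod_congr rfl fun i hi => hf i hi m n hmn

lemma Per.poly {Q : ℕ} {f : ℤ → ℂ} (h : Per Q f) (P : Polynomial ℤ) :
    Per Q (fun m => f (P.eval m)) :=
  fun m n hmn => h _ _ (hmn.trans (Polynomial.sub_dvd_eval_sub m n P))

lemma per_zmod (n : ℕ) (g : ZMod n → ℂ) : Per n (fun m => g (m : ZMod n)) := fun a b hab => by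
  have : (a : ZMod n) = (b : ZMod n) := by
    rw [ZMod.intCast_eq_intCast_iff_dvd_sub, ← neg_sub, dvd_neg]; exact hab
  simp only [this]

lemma per_e (q : ℕ) (a : ℤ) : Per q (fun t => e (a * t / q)) := by
  intro m n hmn
  rcases Nat.eq_zero_or_pos q with rfl | hq
  · simp
  obtain ⟨c, hc⟩ := hmn
  have hq' : (q : ℝ) ≠ 0 := by exact_mod_cast hq.ne'
  have h1 : (m : ℝ) = n + q * c := by
    have : m = n + q * c := by linarith
    exact_mod_cast this
  have : (a : ℝ) * m / q = a * n / q + ((a * c : ℤ) : ℝ) := by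
    rw [h1]; push_cast; field_simp
  simp only [this, e_add, e_int, mul_one]

lemma sum_range_zmod {M : Type*} [AddCommMonoid M] (n : ℕ) [NeZero n] (g : ZMod n → M) :
    ∑ m ∈ range n, g ((m : ℤ) : ZMod n) = ∑ x : ZMod n, g x := by
  refine sum_nbij' (fun m => (m : ZMod n)) (fun x => x.val) (by simp) ?_ ?_ ?_ ?_
  · intro x _; exact mem_range.mpr (ZMod.val_lt x)
  · intro m hm; exact ZMod.val_cast_of_lt (mem_range.mp hm)
  · intro x _; simp
  · intro m _; simp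

lemma Per.eq_val {n : ℕ} [NeZero n] {f : ℤ → ℂ} (h : Per n f) (m : ℤ) :
    f m = f (((m : ZMod n).val : ℕ) : ℤ) := by
  apply h
  rw [← ZMod.intCast_zmod_eq_zero_iff_dvd]
  simp

lemma Per.sum_affine {n : ℕ} {f : ℤ → ℂ} (h : Per n f) (u c : ℤ) (hu : IsCoprime u n) :
    ∑ m ∈ range n, f (u * m + c) = ∑ m ∈ range n, f m := by
  rcases Nat.eq_zero_or_pos n with rfl | hn
  · simp
  have : NeZero n := ⟨hn.ne'⟩
  set g : ZMod n → ℂ := fun x => f ((x.val : ℕ) : ℤ) with hg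
  have h1 : ∀ m : ℤ, f m = g (m : ZMod n) := fun m => h.eq_val m
  have hunit : IsUnit (u : ZMod n) := by
    obtain ⟨a, b, hab⟩ := hu
    have : (a : ZMod n) * u = 1 := by
      have := congrArg (fun z : ℤ => (z : ZMod n)) hab
      simpa using this
    exact IsUnit.of_mul_eq_one_right _ this
  obtain ⟨v, hv⟩ := hunit
  simp only [h1]
  push_cast
  have e1 := sum_range_zmod n (fun x => g ((u : ZMod n) * x + c))
  have e2 := sum_range_zmod n g
  push_cast at e1 e2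
  rw [e1, e2, ← hv]
  exact Equiv.sum_comp ((Units.mulLeft v).trans (Equiv.addRight (c : ZMod n))) g

lemma Per.sum_shift {n : ℕ} {f : ℤ → ℂ} (h : Per n f) (c : ℤ) :
    ∑ m ∈ range n, f (m + c) = ∑ m ∈ range n, f m := by
  simpa using h.sum_affine 1 c isCoprime_one_left

lemma Per.mean_mul {n : ℕ} {f : ℤ → ℂ} (h : Per n f) (k : ℕ) (hk : k ≠ 0) :
    mean (n * k) f = mean n f := by
  have h1 : ∀ k : ℕ, ∑ m ∈ range (n * k), f m = k * ∑ m ∈ range n, f m := by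
    intro k
    induction k with
    | zero => simp
    | succ k ih =>
      rw [Nat.mul_succ, sum_range_add, ih]
      have := h.sum_shift ((n * k : ℕ) : ℤ)
      simp only [Nat.cast_add, add_comm ((n * k : ℕ) : ℤ)]
      rw [this]; push_cast; ring
  unfold mean
  rw [h1]
  have : (k : ℂ) ≠ 0 := by exact_mod_cast hk
  push_cast
  rcases eq_or_ne (n : ℂ) 0 with h0 | h0
  · simp [h0]
  · field_simp

lemma Per.mean_dvd {n Q : ℕ} {f : ℤ → ℂ} (h : Per n f) (hn : n ∣ Q) (hQ : Q ≠ 0) :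
    mean Q f = mean n f := by
  obtain ⟨k, rfl⟩ := hn
  exact h.mean_mul k (fun hk => hQ (by simp [hk]))

lemma mean_const {Q : ℕ} (hQ : Q ≠ 0) (c : ℂ) : mean Q (fun _ => c) = c := by
  have : (Q : ℂ) ≠ 0 := by exact_mod_cast hQ
  simp [mean]; field_simp

lemma mean_const_mul (Q : ℕ) (c : ℂ) (f : ℤ → ℂ) :
    mean Q (fun m => c * f m) = c * mean Q f := by
  simp [mean, ← mul_sum, mul_div_assoc]

lemma mean_add (Q : ℕ) (f g : ℤ → ℂ) :
    mean Q (fun m => f m + g m) = mean Q f + mean Q g := by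
  simp [mean, sum_add_distrib, add_div]

lemma mean_sub (Q : ℕ) (f g : ℤ → ℂ) :
    mean Q (fun m => f m - g m) = mean Q f - mean Q g := by
  simp [mean, sum_sub_distrib, sub_div]

lemma mean_zmod (n : ℕ) [NeZero n] (g : ZMod n → ℂ) :
    mean n (fun m => g (m : ZMod n)) = (∑ x : ZMod n, g x) / n := by
  unfold mean; rw [sum_range_zmod]

lemma norm_mean_le {Q : ℕ} (f : ℤ → ℂ) (g : ℤ → ℝ) (h : ∀ m, ‖f m‖ ≤ g m) :
    ‖mean Q f‖ ≤ (∑ m ∈ range Q, g m) / Q := by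
  unfold mean
  rw [norm_div, Complex.norm_natCast]
  gcongr
  exact (norm_sum_le _ _).trans (sum_le_sum fun m _ => h m)

/-- if every short progression sum vanishes, the mean vanishes -/
lemma Per.mean_eq_zero {Q : ℕ} {f : ℤ → ℂ} (h : Per Q f) (l : ℕ) (hl : l ≠ 0) (d : ℤ)
    (h0 : ∀ m : ℤ, ∑ s ∈ range l, f (m + d * s) = 0) : mean Q f = 0 := by
  have h1 : (l : ℂ) * ∑ m ∈ range Q, f m = 0 := by
    calc (l : ℂ) * ∑ m ∈ range Q, f m = ∑ s ∈ range l, ∑ m ∈ range Q, f (m + d * s) := by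
          rw [sum_congr rfl (fun (s : ℕ) _ => h.sum_shift (d * s))]; simp
      _ = 0 := by rw [sum_comm]; simp [h0]
  have : (l : ℂ) ≠ 0 := by exact_mod_cast hl
  unfold mean
  rw [(mul_eq_zero.mp h1).resolve_left this, zero_div]

/-- independence for coprime periods -/
lemma mean_mul_coprime {a b : ℕ} (hab : a.Coprime b) (ha : a ≠ 0) (hb : b ≠ 0) {f g : ℤ → ℂ}
    (hf : Per a f) (hg : Per b g) :
    mean (a * b) (fun m => f m * g m) = mean a f * mean b g := by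
  have hfg : Per (a * b) (fun m => f m * g m) :=
    (hf.mono (Dvd.intro _ rfl)).mul (hg.mono (Dvd.intro_left _ rfl))
  have ha' : (a : ℂ) ≠ 0 := by exact_mod_cast ha
  have hcop : IsCoprime (b : ℤ) a := Nat.isCoprime_iff_coprime.mpr hab.symm
  have h1 : (a : ℂ) * ∑ m ∈ range (a * b), f m * g m =
      (∑ s ∈ range a, f s) * ∑ m ∈ range (a * b), g m := by
    calc (a : ℂ) * ∑ m ∈ range (a * b), f m * g m
        = ∑ s ∈ range a, ∑ m ∈ range (a * b), f (m + b * s) * g (m + b * s) := by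
          rw [sum_congr rfl (fun (s : ℕ) _ => hfg.sum_shift (b * s))]; simp
      _ = ∑ m ∈ range (a * b), (∑ s ∈ range a, f (b * s + m)) * g m := by
          rw [sum_comm]
          refine sum_congr rfl fun m _ => ?_
          rw [sum_mul]
          refine sum_congr rfl fun s _ => ?_
          rw [hg (m + b * s) m (by simp), add_comm]
      _ = _ := by
          rw [mul_sum]
          exact sum_congr rfl fun m _ => by rw [hf.sum_affine b m hcop]
  have h2 : mean (a * b) g = mean b g := hg.mean_dvd (Dvd.intro_left _ rfl) (mul_ne_zero ha hb)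
  rw [← h2]
  unfold mean
  have h3 : ∑ m ∈ range (a * b), f m * g m =
      (∑ s ∈ range a, f s) / a * ∑ m ∈ range (a * b), g m := by
    rw [div_mul_eq_mul_div, ← h1]; field_simp
  rw [h3]; ring

lemma mean_prod {ι : Type*} [DecidableEq ι] (s : Finset ι) (n : ι → ℕ) (f : ι → ℤ → ℂ)
    (hn : ∀ i ∈ s, n i ≠ 0) (hc : ∀ i ∈ s, ∀ j ∈ s, i ≠ j → (n i).Coprime (n j))
    (hf : ∀ i ∈ s, Per (n i) (f i)) :
    mean (∏ i ∈ s, n i) (fun m => ∏ i ∈ s, f i m) = ∏ i ∈ s, mean (n i) (f i) := by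
  induction s using Finset.induction_on with
  | empty => simpa using mean_const one_ne_zero 1
  | insert i s hi ih =>
    simp only [prod_insert hi]
    rw [← ih (fun j hj => hn j (mem_insert_of_mem hj))
      (fun j hj k hk => hc j (mem_insert_of_mem hj) k (mem_insert_of_mem hk))
      (fun j hj => hf j (mem_insert_of_mem hj))]
    refine mean_mul_coprime (Nat.Coprime.prod_right fun j hj =>
      hc i (mem_insert_self _ _) j (mem_insert_of_mem hj) (fun h => hi (h ▸ hj)))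
      (hn i (mem_insert_self _ _)) (prod_ne_zero_iff.mpr fun j hj => hn j (mem_insert_of_mem hj))
      (hf i (mem_insert_self _ _)) (per_prod s fun j hj =>
        (hf j (mem_insert_of_mem hj)).mono (dvd_prod_of_mem _ hj))

lemma e_ne_one {l : ℕ} (hl : l ≠ 0) {b : ℤ} (hb : ¬ (l : ℤ) ∣ b) : e (b / l) ≠ 1 := by
  intro h
  have h1 := four_mul_le_norm_e_sub_one ((b : ℝ) / l)
  rw [h, sub_self, norm_zero] at h1
  have h2 : (b : ℝ) / l = round ((b : ℝ) / l) := by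
    have := abs_nonneg ((b : ℝ) / l - round ((b : ℝ) / l))
    have h3 : |(b : ℝ) / l - round ((b : ℝ) / l)| = 0 := by linarith
    linarith [abs_eq_zero.mp h3]
  have hl' : (l : ℝ) ≠ 0 := by exact_mod_cast hl
  rw [div_eq_iff hl'] at h2
  exact hb ⟨round ((b : ℝ) / l), by
    have : (b : ℝ) = ((l * round ((b : ℝ) / l) : ℤ) : ℝ) := by push_cast; linarith
    exact_mod_cast this⟩

/-- complete character sums vanish -/
lemma sum_e_eq_zero {l : ℕ} (hl : l ≠ 0) {b : ℤ} (hb : ¬ (l : ℤ) ∣ b) :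
    ∑ s ∈ range l, e (b * ((s : ℤ) : ℝ) / l) = 0 := by
  have h1 := (per_e l b).sum_shift 1
  have h2 : ∀ s : ℕ, e (b * (((s : ℤ) + 1 : ℤ) : ℝ) / l) = e (b / l) * e (b * ((s : ℤ) : ℝ) / l) := by
    intro s
    rw [← e_add]; congr 1; push_cast; ring
  simp only [h2, ← mul_sum] at h1
  have h3 : (e (b / l) - 1) * ∑ s ∈ range l, e (b * ((s : ℤ) : ℝ) / l) = 0 := by
    rw [sub_mul, h1]; ring
  exact (mul_eq_zero.mp h3).resolve_left (sub_ne_zero.mpr (e_ne_one hl hb))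

/-- decomposition into residue classes -/
lemma Per.sum_classes {Q : ℕ} (hQ : Q ≠ 0) {F : ℤ → ℂ} (hF : Per Q F) (s : Finset ℤ)
    (z : ℤ → ℂ) : ∑ m ∈ s, F m * z m =
      ∑ ρ ∈ range Q, F ρ * ∑ m ∈ s.filter (fun m => (Q : ℤ) ∣ m - ρ), z m := by
  have hQ' : (0 : ℤ) < Q := by exact_mod_cast Nat.pos_of_ne_zero hQ
  rw [← sum_fiberwise_of_maps_to (s := s) (t := range Q) (g := fun m : ℤ => (m % (Q : ℤ)).toNat) (by
    intro m _
    have := Int.emod_lt_of_pos m hQ'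
    have := Int.emod_nonneg m hQ'.ne'
    simp only [mem_range]; omega)]
  refine sum_congr rfl fun ρ hρ => ?_
  have hρ' : (ρ : ℤ) < Q := by exact_mod_cast mem_range.mp hρ
  have hf : s.filter (fun m : ℤ => (m % (Q : ℤ)).toNat = ρ) =
      s.filter (fun m => (Q : ℤ) ∣ m - ρ) := by
    refine filter_congr fun m _ => ?_
    have h0 := Int.emod_nonneg m hQ'.ne'
    rw [← Int.modEq_iff_dvd, Int.ModEq, Int.emod_eq_of_lt (Int.natCast_nonneg ρ) hρ']
    omega
  rw [hf, mul_sum]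
  exact sum_congr rfl fun m hm => by rw [hF m ρ (mem_filter.mp hm).2]

lemma Per.norm_sum_le {Q : ℕ} (hQ : Q ≠ 0) {F : ℤ → ℂ} (hF : Per Q F) {B E : ℝ}
    (hB : ∀ m, ‖F m‖ ≤ B) (s : Finset ℤ) (z : ℤ → ℂ)
    (hE : ∀ ρ : ℤ, ‖∑ m ∈ s.filter (fun m => (Q : ℤ) ∣ m - ρ), z m‖ ≤ E) :
    ‖∑ m ∈ s, F m * z m‖ ≤ Q * B * E := by
  rw [hF.sum_classes hQ]
  refine (_root_.norm_sum_le _ _).trans ?_
  have hB0 : 0 ≤ B := (norm_nonneg _).trans (hB 0)
  calc ∑ ρ ∈ range Q, ‖F ρ * ∑ m ∈ s.filter (fun m => (Q : ℤ) ∣ m - ρ), z m‖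
      ≤ ∑ _ρ ∈ range Q, B * E := sum_le_sum fun ρ _ => by
        rw [norm_mul]; exact mul_le_mul (hB _) (hE _) (norm_nonneg _) hB0
    _ = _ := by simp [mul_assoc]

/-- equidistribution of a weight in classes gives the mean value -/
lemma Per.norm_sum_sub_mean {Q : ℕ} (hQ : Q ≠ 0) {F : ℤ → ℂ} (hF : Per Q F) {B E : ℝ}
    (hB : ∀ m, ‖F m‖ ≤ B) (s : Finset ℤ) (z d : ℤ → ℂ) (x : ℂ)
    (hE : ∀ ρ : ℤ, ‖∑ m ∈ s.filter (fun m => (Q : ℤ) ∣ m - ρ), z m - x / Q * d ρ‖ ≤ E) :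
    ‖∑ m ∈ s, F m * z m - x * mean Q (fun m => F m * d m)‖ ≤ Q * B * E := by
  rw [hF.sum_classes hQ]
  have h1 : x * mean Q (fun m => F m * d m) = ∑ ρ ∈ range Q, F ρ * (x / Q * d ρ) := by
    unfold mean
    rw [sum_div, mul_sum]
    exact sum_congr rfl fun ρ _ => by ring
  rw [h1, ← sum_sub_distrib]
  refine (_root_.norm_sum_le _ _).trans ?_
  have hB0 : 0 ≤ B := (norm_nonneg _).trans (hB 0)
  calc ∑ ρ ∈ range Q, ‖F ρ * ∑ m ∈ s.filter (fun m => (Q : ℤ) ∣ m - ρ), z m - F ρ * (x / Q * d ρ)‖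
      ≤ ∑ _ρ ∈ range Q, B * E := sum_le_sum fun ρ _ => by
        rw [← mul_sub, norm_mul]; exact mul_le_mul (hB _) (hE _) (norm_nonneg _) hB0
    _ = _ := by simp [mul_assoc]

/-- counting integers of an interval in a residue class -/
lemma card_class {Q : ℕ} (hQ : Q ≠ 0) {a b : ℤ} (hab : a ≤ b) (ρ : ℤ) :
    |(#((Ioc a b).filter (fun m => (Q : ℤ) ∣ m - ρ)) : ℝ) - ((b : ℝ) - a) / Q| ≤ 1 := by
  have hQ' : (0 : ℤ) < Q := by exact_mod_cast Nat.pos_of_ne_zero hQ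
  have h1 := Int.Ioc_filter_modEq_card a b hQ' ρ
  have h2 : (Ioc a b).filter (fun m => (Q : ℤ) ∣ m - ρ) = (Ioc a b).filter (· ≡ ρ [ZMOD Q]) :=
    filter_congr fun m _ => by rw [Int.modEq_comm, Int.modEq_iff_dvd]
  rw [h2]
  have hQr : (0 : ℚ) < Q := by exact_mod_cast hQ'
  set u : ℚ := ((b : ℚ) - ρ) / ((Q : ℤ) : ℚ) with hu
  set v : ℚ := ((a : ℚ) - ρ) / ((Q : ℤ) : ℚ) with hv
  have huv : u - v = ((b : ℚ) - a) / Q := by rw [hu, hv]; push_cast; ring
  have hvu : v ≤ u := by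
    have : (0 : ℚ) ≤ ((b : ℚ) - a) / Q := by
      have : (a : ℚ) ≤ b := by exact_mod_cast hab
      exact div_nonneg (by linarith) hQr.le
    linarith
  rw [max_eq_left (sub_nonneg.mpr (Int.floor_le_floor hvu))] at h1
  have h3 : (#((Ioc a b).filter (· ≡ ρ [ZMOD Q])) : ℚ) = (⌊u⌋ : ℚ) - ⌊v⌋ := by exact_mod_cast h1
  have h4 : |(#((Ioc a b).filter (· ≡ ρ [ZMOD Q])) : ℚ) - ((b : ℚ) - a) / Q| ≤ 1 := by
    rw [h3, ← huv, abs_le]
    constructor <;> linarith [Int.floor_le u, Int.floor_le v, Int.lt_floor_add_one u,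
      Int.lt_floor_add_one v]
  exact_mod_cast h4

end Crest.Agent.N41.Pair
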