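import Crest.Agent.N41.Defs
import Crest.Agent.N41.Pair.Mean

/-!
# Row 41, Pair Lemma, part 3 (helper95): local factors of the singular series.
-/

set_option autoImplicit false

open Finset Polynomial
open scoped BigOperators

namespace Crest.Agent.N41.Pair

open Crest.Agent.N41.Exp

/-- the additive character `t ↦ e(a t / n)` -/
noncomputable def ch (a : ℤ) (n : ℕ) (t : ℤ) : ℂ := e (a * t / n)

lemma per_ch (a : ℤ) (n : ℕ) : Per n (ch a n) := per_e n a

@[simp] lemma norm_ch (a : ℤ) (n : ℕ) (t : ℤ) : ‖ch a n t‖ = 1 := norm_e _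

lemma ch_one (a t : ℤ) : ch a 1 t = 1 := by
  have := e_int (a * t)
  simpa [ch] using this

lemma ch_add (a : ℤ) (n : ℕ) (s t : ℤ) : ch a n (s + t) = ch a n s * ch a n t := by
  unfold ch; rw [← e_add]; congr 1; push_cast; ring

lemma sum_ch {l : ℕ} (hl : l ≠ 0) {b : ℤ} (hb : ¬ (l : ℤ) ∣ b) : ∑ s ∈ range l, ch b l s = 0 :=
  sum_e_eq_zero hl hb

lemma ch_shift {h l : ℕ} (hh : h ≠ 0) (a c s t t' : ℤ)
    (hd : ((h * l : ℕ) : ℤ) ∣ t' - (t + h * (c * s))) :
    ch a (h * l) t' = ch a (h * l) t * ch (a * c) l s := by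
  rw [per_ch a (h * l) _ _ hd, ch_add]
  congr 1
  unfold ch
  have : (h : ℝ) ≠ 0 := by exact_mod_cast hh
  congr 1; push_cast; field_simp

lemma evz_intCast (p : ℕ) (P : ℤ[X]) (m : ℤ) :
    evz p P (m : ZMod p) = ((P.eval m : ℤ) : ZMod p) := by
  unfold evz
  rw [eval_intCast_map]; simp

/-- Hensel vanishing -/
lemma hensel {p j Q : ℕ} (hp : p.Prime) (hj : 2 ≤ j) (hQ : p ^ j ∣ Q) {a : ℤ}
    (ha : ¬ (p : ℤ) ∣ a) (P : ℤ[X]) {G : ℤ → ℂ} (hG : Per p G)
    (h0 : ∀ m, G m ≠ 0 → ¬ (p : ℤ) ∣ P.derivative.eval m) :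
    mean Q (fun m => G m * ch a (p ^ j) (P.eval m)) = 0 := by
  obtain ⟨i, rfl⟩ : ∃ i, j = i + 2 := ⟨j - 2, by omega⟩
  have hper : Per Q (fun m => G m * ch a (p ^ (i + 2)) (P.eval m)) :=
    (hG.mono ((dvd_pow_self p (by omega)).trans hQ)).mul (((per_ch a _).mono hQ).poly P)
  refine hper.mean_eq_zero p hp.ne_zero ((p ^ (i + 1) : ℕ) : ℤ) fun m => ?_
  have h1 : ∀ s : ℕ, G (m + ((p ^ (i + 1) : ℕ) : ℤ) * s) *
      ch a (p ^ (i + 2)) (P.eval (m + ((p ^ (i + 1) : ℕ) : ℤ) * s)) =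
      G m * ch a (p ^ (i + 2)) (P.eval m) * ch (a * P.derivative.eval m) p s := by
    intro s
    rw [hG (m + ((p ^ (i + 1) : ℕ) : ℤ) * s) m ⟨p ^ i * s, by push_cast; ring⟩, mul_assoc,
      pow_succ p (i + 1)]
    congr 1
    refine ch_shift (pow_ne_zero _ hp.ne_zero) a _ s _ _ ?_
    obtain ⟨K, hK⟩ := binomExpansion P m (((p ^ (i + 1) : ℕ) : ℤ) * s)
    rw [hK]
    exact ⟨K * p ^ i * s ^ 2, by push_cast; ring⟩
  simp only [h1, ← mul_sum]
  by_cases hm : G m = 0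
  · simp [hm]
  · rw [sum_ch hp.ne_zero, mul_zero]
    intro hd
    rcases (Nat.prime_iff_prime_int.mp hp).dvd_or_dvd hd with h | h
    · exact ha h
    · exact h0 m hm h

/-- vanishing at a prime modulo which `P` is linear -/
lemma small_vanish {l q₀ N Q : ℕ} (hl : l.Prime) (hq : q₀ ≠ 0) (hlq : l ∣ q₀) {a : ℤ}
    (ha : ¬ (l : ℤ) ∣ a) (hN : ¬ l ∣ N) (P : ℤ[X]) (h1 : ¬ (l : ℤ) ∣ P.coeff 1)
    (h2 : ∀ j, 2 ≤ j → (l : ℤ) ∣ P.coeff j) {G : ℤ → ℂ} (hG : Per N G)
    (hper : Per Q (fun m => G m * ch a q₀ (P.eval m))) :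
    mean Q (fun m => G m * ch a q₀ (P.eval m)) = 0 := by
  obtain ⟨h, rfl⟩ := hlq
  have hh : h ≠ 0 := fun h0 => hq (by simp [h0])
  obtain ⟨P₁, hP₁⟩ : C (l : ℤ) ∣ P - C (P.coeff 0) - C (P.coeff 1) * X := by
    rw [C_dvd_iff_dvd_coeff]
    intro i
    rw [coeff_sub, coeff_sub, coeff_C_mul, coeff_C, coeff_X]
    rcases i with _ | _ | i
    · simp
    · simp
    · simpa using h2 (i + 1 + 1) (by omega)
  have hev : ∀ x : ℤ, P.eval x = P.coeff 0 + P.coeff 1 * x + l * P₁.eval x := by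
    intro x
    have := congrArg (eval x) hP₁
    simp only [eval_sub, eval_C, eval_mul, eval_X] at this
    linarith
  refine hper.mean_eq_zero l hl.ne_zero ((h * N : ℕ) : ℤ) fun m => ?_
  have h3 : ∀ s : ℕ, G (m + ((h * N : ℕ) : ℤ) * s) *
      ch a (l * h) (P.eval (m + ((h * N : ℕ) : ℤ) * s)) =
      G m * ch a (l * h) (P.eval m) * ch (a * (P.coeff 1 * N)) l s := by
    intro s
    rw [hG (m + ((h * N : ℕ) : ℤ) * s) m ⟨h * s, by push_cast; ring⟩, mul_assoc, mul_comm l h]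
    congr 1
    refine ch_shift hh a _ s _ _ ?_
    obtain ⟨K, hK⟩ := sub_dvd_eval_sub (m + ((h * N : ℕ) : ℤ) * s) m P₁
    refine ⟨N * s * K, ?_⟩
    rw [hev, hev m]
    push_cast at hK ⊢
    linear_combination (l : ℤ) * hK
  simp only [h3, ← mul_sum]
  rw [sum_ch hl.ne_zero, mul_zero]
  intro hd
  have hl' := Nat.prime_iff_prime_int.mp hl
  rcases hl'.dvd_or_dvd hd with h | h
  · exact ha h
  · rcases hl'.dvd_or_dvd h with h | h
    · exact h1 h
    · exact hN (Int.natCast_dvd_natCast.mp h)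

lemma mean_push (p : ℕ) [NeZero p] (P : ℤ[X]) (π : ZMod p → ℝ) {F : ℤ → ℂ} (hF : Per p F) :
    mean p (fun t => (push p P π (t : ZMod p) : ℂ) * F t) =
      mean p (fun m => (π (m : ZMod p) : ℂ) * F (P.eval m)) := by
  set g : ZMod p → ℂ := fun x => F ((x.val : ℕ) : ℤ) with hg
  have h1 : ∀ m : ℤ, F m = g (m : ZMod p) := fun m => hF.eq_val m
  simp only [h1, ← evz_intCast]
  rw [mean_zmod p (fun x => (push p P π x : ℂ) * g x),
    mean_zmod p (fun x => (π x : ℂ) * g (evz p P x))]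
  congr 1
  rw [← sum_fiberwise (s := univ) (g := fun n => evz p P n)
    (f := fun x => (π x : ℂ) * g (evz p P x))]
  refine sum_congr rfl fun t _ => ?_
  unfold push
  push_cast
  rw [sum_mul]
  exact sum_congr rfl fun n hn => by rw [(mem_filter.mp hn).2]

lemma norm_mean_le_zmod {p Q : ℕ} [NeZero p] (hQ : Q ≠ 0) (hpQ : p ∣ Q) (f : ℤ → ℂ)
    (g : ZMod p → ℝ) (h : ∀ m : ℤ, ‖f m‖ ≤ g (m : ZMod p)) : ‖mean Q f‖ ≤ (∑ x, g x) / p := by
  refine (norm_mean_le f (fun m => g (m : ZMod p)) h).trans (le_of_eq ?_)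
  have h1 := (per_zmod p (fun x => (g x : ℂ))).mean_dvd hpQ hQ
  rw [mean_zmod p (fun x => (g x : ℂ))] at h1
  unfold mean at h1
  beta_reduce at h1 ⊢
  exact_mod_cast h1

/-- Fourier coefficients are bounded by the operator norm -/
lemma norm_fourier_le {p : ℕ} [NeZero p] {κ : ZMod p → ℝ} {ρ : ℝ} (hρ : 0 ≤ ρ) (h : OpBd κ ρ)
    {a : ℤ} (ha : ¬ (p : ℤ) ∣ a) : ‖mean p (fun t => (κ (t : ZMod p) : ℂ) * ch a p t)‖ ≤ 2 * ρ := by
  set ε : ZMod p → ℂ := fun x => ch a p ((x.val : ℕ) : ℤ) with hε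
  have h1 : ∀ m : ℤ, ch a p m = ε (m : ZMod p) := fun m => (per_ch a p).eq_val m
  have hadd : ∀ x y, ε (x + y) = ε x * ε y := by
    intro x y
    simp only [hε]
    rw [← ch_add, h1 (_ + _)]
    simp [hε]
  have hsum : ∑ x, ε x = 0 := by
    rw [← sum_range_zmod p ε]
    simp only [← h1]
    exact sum_ch (NeZero.ne p) ha
  simp only [h1]
  rw [mean_zmod p (fun x => (κ x : ℂ) * ε x)]
  set A : ℂ := (∑ x, (κ x : ℂ) * ε x) / p with hA
  have hp0 : (0 : ℝ) < p := by exact_mod_cast NeZero.pos p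
  have key : ∀ φ : ℂ →ₗ[ℝ] ℝ, (∀ z, |φ z| ≤ ‖z‖) → 𝔼 s, φ (ε s * A) ^ 2 ≤ ρ ^ 2 := by
    intro φ hφ
    have h2 := h (fun s => φ (ε s * A)) (fun t => φ (ε t)) (by
      rw [← map_sum, ← sum_mul, hsum, zero_mul, map_zero])
    have h3 : ∀ s, 𝔼 t, φ (ε s * A) * φ (ε t) * κ (t - s) = φ (ε s * A) ^ 2 := by
      intro s
      have e1 : ε s * A = (1 / p : ℝ) • ∑ t, κ (t - s) • ε t := by
        rw [← Equiv.sum_comp (Equiv.addRight s)]
        simp only [Equiv.coe_addRight, add_sub_cancel_right, hadd, hA, Complex.real_smul]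
        rw [mul_div_assoc', mul_sum, sum_div, mul_sum]
        refine sum_congr rfl fun t _ => ?_
        push_cast; ring
      have e2 : φ (ε s * A) = 𝔼 t, φ (ε t) * κ (t - s) := by
        rw [e1, map_smul, map_sum, expect_eq_sum_div_card]
        simp only [map_smul, smul_eq_mul, card_univ, ZMod.card]
        rw [one_div, inv_mul_eq_div]
        congr 1
        exact sum_congr rfl fun t _ => mul_comm _ _
      simp only [mul_assoc]
      rw [← mul_expect, ← e2, sq]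
    simp only [h3] at h2
    have h4 : 𝔼 t, φ (ε t) ^ 2 ≤ 1 := by
      refine expect_le univ_nonempty fun t _ => ?_
      have := hφ (ε t)
      rw [show ‖ε t‖ = 1 from norm_ch _ _ _] at this
      rw [← sq_abs]; nlinarith [abs_nonneg (φ (ε t))]
    set U := 𝔼 s, φ (ε s * A) ^ 2 with hU
    have hU0 : 0 ≤ U := expect_nonneg fun s _ => sq_nonneg _
    have h5 : U ^ 2 ≤ ρ ^ 2 * U := h2.trans (by
      have : 0 ≤ ρ ^ 2 * U := by positivity
      nlinarith)
    rcases hU0.eq_or_lt with h6 | h6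
    · rw [← h6]; positivity
    · nlinarith
  have k1 := key Complex.reLm Complex.abs_re_le_norm
  have k2 := key Complex.imLm Complex.abs_im_le_norm
  have k3 : ‖A‖ ^ 2 = 𝔼 s, Complex.reLm (ε s * A) ^ 2 + 𝔼 s, Complex.imLm (ε s * A) ^ 2 := by
    rw [← expect_add_distrib]
    have : ∀ s, Complex.reLm (ε s * A) ^ 2 + Complex.imLm (ε s * A) ^ 2 = ‖A‖ ^ 2 := by
      intro s
      have e1 : ‖ε s * A‖ = ‖A‖ := by rw [norm_mul, show ‖ε s‖ = 1 from norm_ch _ _ _, one_mul]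
      rw [← e1, Complex.sq_norm, Complex.normSq_apply]
      simp only [Complex.reLm_coe, Complex.imLm_coe]; ring
    simp only [this]
    rw [expect_const univ_nonempty]
  have : ‖A‖ ^ 2 ≤ (2 * ρ) ^ 2 := by nlinarith
  exact (pow_le_pow_iff_left₀ (norm_nonneg _) (by positivity) two_ne_zero).mp this

lemma card_deriv_roots {p k : ℕ} [NeZero p] (hp : p.Prime) (hk : k < p) {P : ℤ[X]}
    (hP : P.natDegree ≤ k) (hj : ∃ j, 1 ≤ j ∧ ¬ (p : ℤ) ∣ P.coeff j) :
    #(univ.filter fun n : ZMod p => evz p (derivative P) n = 0) ≤ k := by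
  classical
  have : Fact p.Prime := ⟨hp⟩
  obtain ⟨j, hj1, hj2⟩ := hj
  have hjk : j ≤ k := (le_natDegree_of_ne_zero (fun h => hj2 (by rw [h]; simp))).trans hP
  obtain ⟨i, rfl⟩ : ∃ i, j = i + 1 := ⟨j - 1, by omega⟩
  set g := (derivative P).map (Int.castRingHom (ZMod p)) with hg
  have hg0 : g ≠ 0 := by
    intro h
    have h1 : g.coeff i = 0 := by rw [h]; simp
    rw [hg, coeff_map, coeff_derivative, eq_intCast, ZMod.intCast_zmod_eq_zero_iff_dvd] at h1
    rcases (Nat.prime_iff_prime_int.mp hp).dvd_or_dvd h1 with h | h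
    · exact hj2 h
    · have h2 : p ∣ i + 1 := by exact_mod_cast h
      have := Nat.le_of_dvd (by omega) h2
      omega
  calc #(univ.filter fun n : ZMod p => evz p (derivative P) n = 0) ≤ #g.roots.toFinset :=
        card_le_card fun n hn => by
          rw [Multiset.mem_toFinset, mem_roots hg0]; exact (mem_filter.mp hn).2
    _ ≤ g.roots.card := Multiset.toFinset_card_le _
    _ ≤ g.natDegree := card_roots' g
    _ ≤ k := natDegree_map_le.trans ((natDegree_derivative_le P).trans (by omega))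

/-- the local factor `C_p` -/
lemma norm_C_le {p j k : ℕ} [NeZero p] (hp : p.Prime) (hk : k < p) (hj : 1 ≤ j) {P : ℤ[X]}
    (hP : P.natDegree ≤ k) (hc : ∃ j, 1 ≤ j ∧ ¬ (p : ℤ) ∣ P.coeff j) {a : ℤ} (ha : ¬ (p : ℤ) ∣ a)
    {σ : ℝ} (hσ : ‖mean p (fun m => ch a p (P.eval m))‖ ≤ σ) (ι : ZMod p → ℝ)
    (hι : ∀ n, |ι n| ≤ 2) (hι1 : ∑ n, |ι n - 1| ≤ 2) :
    ‖mean (p ^ (j + 1)) (fun m => (ι (m : ZMod p) : ℂ) * ch a (p ^ j) (P.eval m))‖ ≤
      σ + (2 + 2 * k) / p := by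
  classical
  have hp0 : (0 : ℝ) < p := by exact_mod_cast hp.pos
  have hσ0 : 0 ≤ σ := (norm_nonneg _).trans hσ
  have hQ : p ^ (j + 1) ≠ 0 := pow_ne_zero _ hp.ne_zero
  have hpQ : p ∣ p ^ (j + 1) := dvd_pow_self p (by omega)
  rcases hj.eq_or_lt with rfl | hj
  · have e1 : (fun m : ℤ => (ι (m : ZMod p) : ℂ) * ch a (p ^ 1) (P.eval m)) = fun m : ℤ =>
        ch a p (P.eval m) + ((ι (m : ZMod p) - 1 : ℝ) : ℂ) * ch a p (P.eval m) := by
      funext m; rw [pow_one]; push_cast; ring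
    rw [e1, mean_add, ((per_ch a p).poly P).mean_dvd hpQ hQ]
    refine (norm_add_le _ _).trans (add_le_add hσ ?_)
    refine (norm_mean_le_zmod hQ hpQ _ (fun x => |ι x - 1|) fun m => ?_).trans ?_
    · rw [norm_mul, norm_ch, mul_one, Complex.norm_real, Real.norm_eq_abs]
    · gcongr
      linarith [show (0 : ℝ) ≤ k by positivity]
  · set g : ZMod p → ℂ := fun x => if evz p (derivative P) x = 0 then 0 else ι x with hg
    set g' : ZMod p → ℂ := fun x => if evz p (derivative P) x = 0 then ι x else 0 with hg'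
    have e1 : (fun m : ℤ => (ι (m : ZMod p) : ℂ) * ch a (p ^ j) (P.eval m)) = fun m : ℤ =>
        g (m : ZMod p) * ch a (p ^ j) (P.eval m) + g' (m : ZMod p) * ch a (p ^ j) (P.eval m) := by
      funext m; simp only [hg, hg']; split_ifs <;> simp
    rw [e1, mean_add, hensel hp hj (pow_dvd_pow p (by omega)) ha P (per_zmod p g) (by
      intro m hm hd
      apply hm
      simp only [hg]
      rw [if_pos]
      rw [evz_intCast, ZMod.intCast_zmod_eq_zero_iff_dvd]; exact hd), zero_add]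
    refine (norm_mean_le_zmod hQ hpQ _
      (fun x => if evz p (derivative P) x = 0 then 2 else 0) fun m => ?_).trans ?_
    · rw [norm_mul, norm_ch, mul_one]
      simp only [hg']
      split_ifs
      · rw [Complex.norm_real]; exact hι _
      · simp
    · rw [← sum_filter, sum_const, nsmul_eq_mul]
      have h1 : (#(univ.filter fun n : ZMod p => evz p (derivative P) n = 0) : ℝ) ≤ k := by
        exact_mod_cast card_deriv_roots hp hk hP hc
      refine le_trans ?_ (le_add_of_nonneg_left hσ0)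
      gcongr
      linarith

end Crest.Agent.N41.Pair
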