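import Crest.Agent.N41.Pair.Inst

/-!
# Row 41, Pair Lemma, part 8 (helper95): choice of the parameters.
-/

set_option autoImplicit false

open Finset Polynomial
open scoped BigOperators

namespace Crest.Agent.N41.Pair

open Crest.Agent.N41.Exp
open Crest.Agent.N41.ES (qq es avg proj red)

lemma numeric {Z L M y R C G w : ℝ} (hZ : 240 ≤ Z) (hy : 1 ≤ y) (hyZ : y ≤ Z) (hC0 : 0 ≤ C)
    (hC : C ≤ Z) (hR : Z ^ 4 ≤ R) (hM : Z ^ 10 * R ^ 3 ≤ M) (hL : M ≤ L) (hG0 : 0 ≤ G)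
    (hG : G ≤ 2 * Z * M / (Z ^ 10 * R ^ 3)) :
    w + y * y * (Z * L / M * (7 * (4 * R))) +
      y * (R * y * y * (C * G * (4 * (Z * (R * Z)))) * (Z * L / M * (2 + 7 * (4 * R)))) +
      y * (R * y * y * 1 * (1 + 7 * (4 * R))) + y * (y * y * (2 * Z * M / Z ^ 10) * (Z * L / M * 2)) +
      y * (y * y * (1 / (2 * (R / L)))) ≤ w + 5 * (L / Z) ∧
    y * y * (Z * L / M) * (C * G) ≤ L / Z := by
  have hZ1 : 1 ≤ Z := by linarith
  have hZ0 : 0 < Z := by linarith
  have hR1 : 1 ≤ R := (one_le_pow₀ hZ1).trans hR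
  have hR0 : 0 < R := by linarith
  have hS0 : 0 < Z ^ 10 * R ^ 3 := by positivity
  have hM0 : 0 < M := by linarith
  have hL0 : 0 < L := by linarith
  have mono : ∀ (c : ℝ) (i j : ℕ), c ≤ Z → i + 1 ≤ 10 → j ≤ 3 →
      c * (Z ^ i * R ^ j) ≤ Z ^ 10 * R ^ 3 := by
    intro c i j hc hi hj
    calc c * (Z ^ i * R ^ j) ≤ Z * (Z ^ i * R ^ j) := by gcongr
      _ = Z ^ (i + 1) * R ^ j := by ring
      _ ≤ _ := by gcongr
  have fin : ∀ (c : ℝ) (i j : ℕ), c ≤ Z → i + 2 ≤ 10 → j ≤ 3 →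
      L * (c * (Z ^ i * R ^ j)) / (Z ^ 10 * R ^ 3) ≤ L / Z := by
    intro c i j hc hi hj
    rw [div_le_div_iff₀ hS0 hZ0, mul_assoc]
    refine mul_le_mul_of_nonneg_left (le_trans (le_of_eq ?_) (mono c (i + 1) j hc hi hj)) hL0.le
    ring
  have t2 : y * y * (Z * L / M * (7 * (4 * R))) ≤ L / Z := by
    refine le_trans ?_ (fin 28 3 1 (by linarith) (by norm_num) (by norm_num))
    calc _ ≤ Z * Z * (Z * L / (Z ^ 10 * R ^ 3) * (7 * (4 * R))) := by gcongr
      _ = _ := by ring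
  have t3 : y * (R * y * y * (C * G * (4 * (Z * (R * Z)))) * (Z * L / M * (2 + 7 * (4 * R)))) ≤
      L / Z := by
    refine le_trans ?_ (fin 240 8 3 (by linarith) (by norm_num) (by norm_num))
    calc _ ≤ Z * (R * Z * Z * (Z * (2 * Z * M / (Z ^ 10 * R ^ 3)) * (4 * (Z * (R * Z)))) *
          (Z * L / M * (2 * R + 7 * (4 * R)))) := by gcongr; linarith
      _ = _ := by field_simp; ring
  have t4 : y * (R * y * y * 1 * (1 + 7 * (4 * R))) ≤ L / Z := by
    refine le_trans ?_ (fin 29 3 2 (by linarith) (by norm_num) (by norm_num))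
    calc _ ≤ Z * (R * Z * Z * 1 * (R + 7 * (4 * R))) := by gcongr
      _ = (Z ^ 10 * R ^ 3) * (29 * (Z ^ 3 * R ^ 2)) / (Z ^ 10 * R ^ 3) := by field_simp; ring
      _ ≤ _ := by gcongr; linarith
  have t5 : y * (y * y * (2 * Z * M / Z ^ 10) * (Z * L / M * 2)) ≤ L / Z := by
    refine le_trans ?_ (fin 4 5 3 (by linarith) (by norm_num) (by norm_num))
    calc _ ≤ Z * (Z * Z * (2 * Z * M / Z ^ 10) * (Z * L / M * 2)) := by gcongr
      _ = _ := by field_simp; ring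
  have t6 : y * (y * y * (1 / (2 * (R / L)))) ≤ L / Z := by
    calc _ ≤ Z * (Z * Z * (1 / (1 * (Z ^ 4 / L)))) := by gcongr; norm_num
      _ = _ := by field_simp
  refine ⟨by linarith, le_trans ?_ (fin 2 5 0 (by linarith) (by norm_num) (by norm_num))⟩
  calc _ ≤ Z * Z * (Z * L / M) * (Z * (2 * Z * M / (Z ^ 10 * R ^ 3))) := by gcongr
    _ = _ := by field_simp

theorem pair_of (pr : Bool) (hC : CompleteStmt) (hW : WeylStmt pr) (hE : EqStmt pr)
    (hB : BadStmt pr) : PairStmt pr := by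
  intro k κ Cπ hk hκ _
  obtain ⟨p₀, δ, hδ, hδ1, hld⟩ := ld_of hC k hκ
  obtain ⟨C, hW⟩ := hW k hk
  obtain ⟨δ', C', hδ', hδ'2, hC', hE⟩ := hE
  obtain ⟨C'', hC'', hB⟩ := hB
  set a : ℕ := 10 * C + 10 with ha
  set n : ℕ := 10 + a * 3 with hn
  refine ⟨p₀, ⌈(n : ℝ) / δ'⌉₊ + n, δ / 2, max 240 (max (max C' C'') (20 ^ (2 / δ))), by omega,
    by positivity, ?_⟩
  intro ι _ _ q _ P r d X₁ X₂ L Z y xa xb π A B hp hinj hp₀ hP hlc hA hrd hdZ hcop hy hyZ hX₂ hlog
    hs hc hπ hπ1 hadm hop hIA hIB hAB hno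
  have h := hld pr ι q P r d π hp hinj hp₀ hP.le hc (fun i n => (hπ i n).1) hπ1 hadm hop
  obtain ⟨hy1, hy2⟩ := max_le_iff.mp hy
  obtain ⟨hy2, hy3⟩ := max_le_iff.mp hy2
  have hZ : 240 ≤ Z := hy1.trans hyZ
  have hZ1 : 1 ≤ Z := by linarith
  have hZ0 : 0 < Z := by linarith
  have hy0 : 0 < y := by linarith
  have hd : 1 ≤ d := by omega
  have hd1 : (1 : ℝ) ≤ d := by exact_mod_cast hd
  set R : ℝ := Z ^ a with hR
  have hS : Z ^ 10 * R ^ 3 = Z ^ n := by rw [hR, ← pow_mul, ← pow_add]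
  have hM : Z ^ 10 * R ^ 3 ≤ X₂ := by
    rw [hS]; exact (pow_le_pow_right₀ hZ1 (by omega)).trans hX₂
  have hM1 : (1 : ℝ) ≤ X₂ := (one_le_pow₀ hZ1).trans hX₂
  have hM0 : (0 : ℝ) < X₂ := by linarith
  have hL1 : 1 ≤ L := hM1.trans hA.small
  have hL0 : 0 < L := by linarith
  have hR0 : 0 < R := by positivity
  set X₀ : ℝ := 2 * Z * X₂ with hX₀
  have hdX : (d : ℝ) * X₂ ≤ Z * X₂ := by gcongr
  have hX₀1 : X₂ ≤ X₀ := by nlinarith
  have hrX : ∀ x : ℤ, x ≤ X₂ → (r : ℝ) + d * x ≤ X₀ := by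
    intro x hx
    have h1 : (x : ℝ) ≤ X₂ := by exact_mod_cast hx
    have h2 : (r : ℝ) ≤ d := by exact_mod_cast hrd.le
    have h3 : (d : ℝ) * x ≤ d * X₂ := by gcongr
    nlinarith
  have hG : X₀ ^ (1 - δ') ≤ 2 * Z * X₂ / (Z ^ 10 * R ^ 3) := by
    rw [Real.rpow_sub (by linarith), Real.rpow_one, hS]
    gcongr
    calc Z ^ n = Z ^ (n : ℝ) := (Real.rpow_natCast Z n).symm
      _ ≤ Z ^ (((⌈(n : ℝ) / δ'⌉₊ + n : ℕ) : ℝ) * δ') := by
          refine Real.rpow_le_rpow_of_exponent_le hZ1 ?_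
          rw [← div_le_iff₀ hδ']
          push_cast
          linarith [Nat.le_ceil ((n : ℝ) / δ'), show (0 : ℝ) ≤ n by positivity]
      _ = (Z ^ (⌈(n : ℝ) / δ'⌉₊ + n)) ^ δ' := by rw [Real.rpow_mul hZ0.le, Real.rpow_natCast]
      _ ≤ _ := Real.rpow_le_rpow (by positivity) (hX₂.trans hX₀1) hδ'.le
  have hnum := numeric (w := 4 * L * y ^ (-δ)) (L := L) (C := max C' C'') hZ (by linarith) hyZ
    (by positivity) (hy2.trans hyZ) (pow_le_pow_right₀ hZ1 (show 4 ≤ a by omega)) hM hA.small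
    (by positivity) hG
  have hX1 : (1 : ℤ) ≤ X₁ := by exact_mod_cast hA.one_le
  have hdP : ∀ m : ℕ, dP P m = inc (fun m => P.eval m) (m : ℤ) := fun m => rfl
  have hconv : Conv (fun m => P.eval m) X₁ X₂ (Z * L / X₂) := by
    refine ⟨by exact_mod_cast hA.le, (hA.mono X₁ le_rfl hA.le).1.le, fun m h1 h2 => ?_, ?_⟩
    · obtain ⟨m, rfl⟩ := Int.eq_ofNat_of_zero_le (show 0 ≤ m by omega)
      have := (hA.mono m (by omega) (by omega)).2
      rwa [hdP, hdP, Nat.cast_add, Nat.cast_one] at this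
    · rw [le_div_iff₀ hM0, mul_comm, ← hdP]; exact hA.step
  have hrange : ((P.eval (X₂ : ℤ) : ℤ) : ℝ) - (P.eval (X₁ : ℤ) : ℤ) ≤ 4 * L := by
    have := hA.range; push_cast at this; exact this
  have hRZ : R * Z ≤ Z ^ (⌈(n : ℝ) / δ'⌉₊ + n) := by
    rw [hR, ← pow_succ]; exact pow_le_pow_right₀ hZ1 (by omega)
  have hZR : Z ≤ R := le_self_pow₀ hZ1 (by omega)
  have hsup := h.sup hδ.le hconv (phi pr r d) (y := y) (R := R) (R' := 4 * R) (ε := R / L)
    (E₀ := max C' C'' * X₀ ^ (1 - δ') * (4 * (Z * (R * Z)))) (E₁ := X₀ / Z ^ 10) (by linarith)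
    (hyZ.trans hZR) (by positivity) (by
      calc _ ≤ R / L * (4 * L) := by gcongr
        _ = _ := by field_simp)
    (fun l hl hlR hlq => ⟨(hs l hl (by nlinarith) hlq).1, (hs l hl (by nlinarith) hlq).2.1⟩)
    (fun Q hQ hQR ρ x h1 h2 => by
      have hQZ : (Q : ℝ) ≤ R * Z := hQR.trans (by gcongr)
      have hQ1 : (1 : ℝ) ≤ Q := by exact_mod_cast Nat.pos_of_ne_zero hQ
      refine (hE ι q r d Q X₁ x ρ X₀ hp hinj hrd hcop hQ (fun l hl hlQ hlq => (hs l hl
        (le_trans (by exact_mod_cast Nat.le_of_dvd (Nat.pos_of_ne_zero hQ) hlQ) (hQZ.trans hRZ))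
        hlq).2.2) hX1 h1 (hrX x h2)).trans ?_
      refine mul_le_mul (by gcongr; exact le_max_left _ _)
        ((Real.log_le_self (by positivity)).trans (by gcongr)) (Real.log_nonneg (by nlinarith))
        (by positivity))
    (fun α hα Q hQ _ ρ x h1 h2 => minor hW hP hlc hd
      (le_trans (by linarith) (le_self_pow₀ hZ1 (by norm_num))) (by linarith) (by
        have e1 : X₀ ≤ (2 * Z) * L := by rw [hX₀]; gcongr; exact hA.small
        refine (Real.log_le_log (by linarith) e1).trans ?_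
        rw [Real.log_mul (by positivity) hL0.ne']
        have e2 := Real.log_le_self (show 0 ≤ 2 * Z by positivity)
        have e3 : Z ^ 2 ≤ Z ^ 10 := pow_le_pow_right₀ hZ1 (by norm_num)
        nlinarith) (by
        rw [← pow_mul, hR]
        calc Z ^ (10 * C) * (P.leadingCoeff : ℝ) ≤ Z ^ (10 * C) * Z := by gcongr; exact hA.lead
          _ = Z ^ (10 * C + 1) := by ring
          _ ≤ _ := pow_le_pow_right₀ hZ1 (by omega)) (by
        rw [← pow_mul, hR, div_mul_eq_mul_div, div_le_div_iff₀ (by positivity) hL0]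
        calc Z ^ (10 * C) * (d : ℝ) ^ k * L ≤ Z ^ (10 * C) * (d : ℝ) ^ k * (Z * (X₂ : ℝ) ^ k) := by
              gcongr; exact hA.big
          _ = Z ^ (10 * C + 1) * ((d : ℝ) * X₂) ^ k := by ring
          _ ≤ _ := by
              refine mul_le_mul (pow_le_pow_right₀ hZ1 (by omega)) ?_ (by positivity)
                (by positivity)
              gcongr; nlinarith) hα hQ ρ hX1 h1 (hrX x h2)) (by positivity)
  classical
  have hfin := pair_abs (Ico (X₁ : ℤ) X₂) (fun m => P.eval m) _ _ _ _ A B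
    (fun m => pr = true ∧ ¬ ((r : ℤ) + d * m).toNat.Prime) (H := 4 * L * y ^ (-δ) + 5 * (L / Z))
    (E := L / Z) (fun α => (hsup α).trans (le_trans (by gcongr) hnum.1)) hAB (by
      intro x hx z hz m hm hb
      obtain ⟨h1, h2⟩ := mem_Ico.mp hm
      obtain ⟨m, rfl⟩ := Int.eq_ofNat_of_zero_le (show 0 ≤ m by omega)
      refine hno x hx z hz m (by omega) (by omega) fun hpr => ?_
      by_contra hnp
      refine hb ⟨hpr, ?_⟩
      rwa [show ((r : ℤ) + d * m) = ((r + d * m : ℕ) : ℤ) by push_cast; ring, Int.toNat_natCast]) (by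
      refine le_trans ?_ hnum.2
      have h1 := hB r d X₁ X₂ X₀ hrd hX1 hconv.le (hrX _ le_rfl)
      have h2 : C'' * √X₀ ≤ max C' C'' * X₀ ^ (1 - δ') := by
        refine mul_le_mul (le_max_right _ _) ?_ (by positivity) (by positivity)
        rw [Real.sqrt_eq_rpow]
        exact Real.rpow_le_rpow_of_exponent_le (by linarith) (by linarith)
      refine le_trans ?_ (mul_le_mul_of_nonneg_left (h1.trans h2) (by positivity))
      rw [mul_sum]
      refine sum_le_sum fun m hm => ?_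
      obtain ⟨h3, h4⟩ := mem_Ico.mp (mem_filter.mp hm).1
      rw [mul_right_comm, norm_mul, norm_mul, Complex.norm_intCast,
        abs_of_nonneg (by exact_mod_cast hconv.inc_nonneg h3 h4.le)]
      refine mul_le_mul_of_nonneg_right (mul_le_mul ?_ ?_ ?_ (by positivity)) (norm_nonneg _)
      · exact sum_low_le hp hinj hy0.le _ hy0.le fun S hS => (h.norm_th S m).trans hS
      · exact hconv.inc_le h3 h4.le
      · exact_mod_cast hconv.inc_nonneg h3 h4.le)
  simp only [← proj_eq_ka q P π hπ1, ← Complex.ofReal_sum, Complex.norm_real,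
    Real.norm_eq_abs] at hfin
  refine hfin.trans ?_
  have cA := ES.card_le_of_inI hIA hL0.le
  have cB := ES.card_le_of_inI hIB hL0.le
  have b1 : L / Z ≤ L * y ^ (-δ) := by
    rw [div_eq_mul_inv]
    gcongr
    calc Z⁻¹ ≤ y⁻¹ := by gcongr
      _ = y ^ (-1 : ℝ) := (Real.rpow_neg_one y).symm
      _ ≤ _ := Real.rpow_le_rpow_of_exponent_le (by linarith) (by linarith)
  have b2 : 20 * y ^ (-δ) ≤ y ^ (-(δ / 2)) := by
    have e1 : (20 : ℝ) ≤ y ^ (δ / 2) := by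
      calc (20 : ℝ) = (20 ^ (2 / δ)) ^ (δ / 2) := by
            rw [← Real.rpow_mul (by norm_num), show 2 / δ * (δ / 2) = 1 by field_simp,
              Real.rpow_one]
        _ ≤ _ := by gcongr
    calc 20 * y ^ (-δ) ≤ y ^ (δ / 2) * y ^ (-δ) := by gcongr
      _ = _ := by rw [← Real.rpow_add hy0]; congr 1; ring
  calc _ ≤ (4 * L * y ^ (-δ) + 5 * (L * y ^ (-δ))) * ((2 * L + 2 * L) / 2) +
        2 * L * (L * y ^ (-δ)) := by gcongr <;> linarith
    _ = L ^ 2 * (20 * y ^ (-δ)) := by ring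
    _ ≤ _ := by gcongr

end Crest.Agent.N41.Pair
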