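import Crest.Agent.N41.Pair.Loc

/-!
# Row 41, Pair Lemma, part 4 (helper95): comparison of the two singular series.
-/

set_option autoImplicit false

open Finset Polynomial
open scoped BigOperators

namespace Crest.Agent.N41.Pair

open Crest.Agent.N41.Exp
open Crest.Agent.N41.ES (qq)

variable {ι : Type} [Fintype ι] [DecidableEq ι]

omit [Fintype ι] in
lemma ch_factor (s : Finset ι) (n : ι → ℕ) (hn : ∀ i ∈ s, n i ≠ 0)
    (hc : ∀ i ∈ s, ∀ j ∈ s, i ≠ j → (n i).Coprime (n j)) (a : ℤ)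
    (ha : IsCoprime a ((∏ i ∈ s, n i : ℕ) : ℤ)) :
    ∃ b : ι → ℤ, (∀ i ∈ s, IsCoprime (b i) (n i)) ∧
      ∀ t, ch a (∏ i ∈ s, n i) t = ∏ i ∈ s, ch (b i) (n i) t := by
  induction s using Finset.induction_on generalizing a with
  | empty => exact ⟨fun _ => 0, by simp, fun t => by simp [ch_one]⟩
  | insert i s hi ih =>
    rw [prod_insert hi] at ha ⊢
    set N := ∏ j ∈ s, n j with hN
    have hcop : (n i).Coprime N := Nat.Coprime.prod_right fun j hj =>
      hc i (mem_insert_self _ _) j (mem_insert_of_mem hj) (fun h => hi (h ▸ hj))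
    obtain ⟨u, v, huv⟩ := Nat.isCoprime_iff_coprime.mpr hcop
    push_cast at ha
    have hN0 : (N : ℝ) ≠ 0 := by
      exact_mod_cast prod_ne_zero_iff.mpr fun j hj => hn j (mem_insert_of_mem hj)
    have hi0 : (n i : ℝ) ≠ 0 := by exact_mod_cast hn i (mem_insert_self _ _)
    obtain ⟨b, hb1, hb2⟩ := ih (fun j hj => hn j (mem_insert_of_mem hj))
      (fun j hj k hk => hc j (mem_insert_of_mem hj) k (mem_insert_of_mem hk)) (a * u)
      (IsCoprime.mul_left ha.of_mul_right_right ⟨n i, v, by linarith⟩)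
    have hne : ∀ j ∈ s, j ≠ i := fun j hj h => hi (h ▸ hj)
    refine ⟨Function.update b i (a * v), fun j hj => ?_, fun t => ?_⟩
    · rcases mem_insert.mp hj with rfl | hj
      · rw [Function.update_self]
        exact IsCoprime.mul_left ha.of_mul_right_left ⟨N, u, by linarith⟩
      · rw [Function.update_of_ne (hne j hj)]
        exact hb1 j hj
    · rw [prod_insert hi, Function.update_self, prod_congr rfl
        (g := fun j => ch (b j) (n j) t) (fun j hj => by rw [Function.update_of_ne (hne j hj)]),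
        ← hb2]
      unfold ch
      rw [← e_add]
      congr 1
      have h1 : (u : ℝ) * n i + v * N = 1 := by exact_mod_cast huv
      push_cast
      field_simp
      linear_combination (-(a : ℝ) * t) * h1

lemma mem_low {q : ι → ℕ} {y : ℝ} {S : Finset ι} : S ∈ low q ∅ y ↔ (qq q S : ℝ) ≤ y := by
  simp [low]

lemma alg (q : ι → ℕ) (hq : ∀ i, 1 ≤ q i) {y δ : ℝ} (hy : 0 < y) (hδ : 0 ≤ δ) (T : Finset ι)
    (A C C' : ι → ℂ) (h1 : ∀ i, i ∉ T → A i = 1 ∧ C i = 1 ∧ C' i = 1) (h2 : ∀ i ∈ T, C' i = 0)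
    (h3 : ∀ i ∈ T, ‖A i‖ + 2 * ‖C i‖ ≤ (q i : ℝ) ^ (-δ)) :
    ‖∑ S ∈ low q ∅ y, (∏ i ∈ S, (A i - C i)) * ∏ i ∈ Sᶜ, C i -
      ∑ S ∈ low q ∅ y, (∏ i ∈ S, (A i - C' i)) * ∏ i ∈ Sᶜ, C' i‖ ≤ y ^ (-δ) := by
  by_cases hT : (qq q T : ℝ) ≤ y
  · have key : ∀ D : ι → ℂ, (∀ i, i ∉ T → D i = 1) →
        ∑ S ∈ low q ∅ y, (∏ i ∈ S, (A i - D i)) * ∏ i ∈ Sᶜ, D i = ∏ i, A i := by
      intro D hD
      have e1 := prod_add (fun i => A i - D i) D univ
      simp only [sub_add_cancel, powerset_univ, ← compl_eq_univ_sdiff] at e1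
      rw [e1]
      refine sum_subset (subset_univ _) fun S _ hS => ?_
      have : ¬ S ⊆ T := fun hST => hS (mem_low.mpr (le_trans (by
        exact_mod_cast prod_le_prod_of_subset_of_one_le' hST fun i _ _ => hq i) hT))
      obtain ⟨i, hi, hiT⟩ := not_subset.mp this
      rw [prod_eq_zero hi (by rw [(h1 i hiT).1, hD i hiT, sub_self]), zero_mul]
    rw [key C fun i hi => (h1 i hi).2.1, key C' fun i hi => (h1 i hi).2.2, sub_self, norm_zero]
    positivity
  · have e2 : ∑ S ∈ low q ∅ y, (∏ i ∈ S, (A i - C' i)) * ∏ i ∈ Sᶜ, C' i = 0 := by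
      refine sum_eq_zero fun S hS => ?_
      have hTS : ¬ T ⊆ S := fun hST => hT (le_trans (by
        exact_mod_cast prod_le_prod_of_subset_of_one_le' hST fun i _ _ => hq i) (mem_low.mp hS))
      obtain ⟨i, hi, hiS⟩ := not_subset.mp hTS
      rw [prod_eq_zero (mem_compl.mpr hiS) (h2 i hi), mul_zero]
    rw [e2, sub_zero]
    have e1 := prod_add (fun i => ‖A i - C i‖) (fun i => ‖C i‖) univ
    simp only [powerset_univ, ← compl_eq_univ_sdiff] at e1
    calc ‖∑ S ∈ low q ∅ y, (∏ i ∈ S, (A i - C i)) * ∏ i ∈ Sᶜ, C i‖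
        ≤ ∑ S ∈ low q ∅ y, (∏ i ∈ S, ‖A i - C i‖) * ∏ i ∈ Sᶜ, ‖C i‖ := by
          refine (norm_sum_le _ _).trans (le_of_eq (sum_congr rfl fun S _ => ?_))
          rw [norm_mul, norm_prod, norm_prod]
      _ ≤ ∑ S : Finset ι, (∏ i ∈ S, ‖A i - C i‖) * ∏ i ∈ Sᶜ, ‖C i‖ :=
          sum_le_sum_of_subset_of_nonneg (subset_univ _) fun S _ _ => by positivity
      _ = ∏ i ∈ T, (‖A i - C i‖ + ‖C i‖) := by
          rw [← e1]
          refine (prod_subset (subset_univ T) fun i _ hi => ?_).symm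
          rw [(h1 i hi).1, (h1 i hi).2.1]; simp
      _ ≤ ∏ i ∈ T, (q i : ℝ) ^ (-δ) := by
          refine prod_le_prod (fun i _ => by positivity) fun i hi => ?_
          linarith [norm_sub_le (A i) (C i), h3 i hi]
      _ = (qq q T : ℝ) ^ (-δ) := by
          rw [Real.finsetProd_rpow _ _ (fun i _ => by positivity)]; simp [qq]
      _ ≤ y ^ (-δ) := Real.rpow_le_rpow_of_nonpos hy (not_le.mp hT).le (by linarith)

variable (q : ι → ℕ) [∀ i, NeZero (q i)]

/-- the weight `θ_S` on the variable of the polynomial -/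
noncomputable def th (π io : ∀ i, ZMod (q i) → ℝ) (S : Finset ι) (m : ℤ) : ℂ :=
  ∏ i ∈ S, ((π i (m : ZMod (q i)) / io i (m : ZMod (q i)) - 1 : ℝ) : ℂ)

/-- the Efron–Stein part `κ_S` of the model kernel -/
noncomputable def ka (P : ℤ[X]) (π : ∀ i, ZMod (q i) → ℝ) (S : Finset ι) (t : ℤ) : ℂ :=
  ∏ i ∈ S, ((push (q i) P (π i) (t : ZMod (q i)) - 1 : ℝ) : ℂ)

/-- the local density of the weight modulo `Q` -/
noncomputable def dens (io : ∀ i, ZMod (q i) → ℝ) (Q : ℕ) (m : ℤ) : ℂ :=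
  ∏ i ∈ univ.filter (fun i => q i ∣ Q), (io i (m : ZMod (q i)) : ℂ)

/-- the local hypotheses -/
structure LD (P : ℤ[X]) (π io : ∀ i, ZMod (q i) → ℝ) (δ : ℝ) : Prop where
  prime : ∀ i, (q i).Prime
  inj : Function.Injective q
  pi_nonneg : ∀ i n, 0 ≤ π i n
  pi_sum : ∀ i, ∑ n, π i n = q i
  io_sum : ∀ i, ∑ n, io i n = q i
  io_one : ∀ i n, io i n = 0 ∨ 1 ≤ io i n
  supp : ∀ i n, π i n ≠ 0 → io i n ≠ 0 ∧ evz (q i) (derivative P) n ≠ 0
  bound : ∀ i (j : ℕ) (a : ℤ), 1 ≤ j → ¬ (q i : ℤ) ∣ a →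
    ‖mean (q i ^ (j + 1)) (fun m => (π i (m : ZMod (q i)) : ℂ) * ch a (q i ^ j) (P.eval m))‖ +
      2 * ‖mean (q i ^ (j + 1))
        (fun m => (io i (m : ZMod (q i)) : ℂ) * ch a (q i ^ j) (P.eval m))‖ ≤ (q i : ℝ) ^ (-δ)

variable {q}

omit [Fintype ι] [DecidableEq ι] [∀ i, NeZero (q i)] in
lemma per_th (π io : ∀ i, ZMod (q i) → ℝ) (S : Finset ι) : Per (qq q S) (th q π io S) :=
  per_prod S fun i hi => (per_zmod (q i) fun x => ((π i x / io i x - 1 : ℝ) : ℂ)).mono
    (dvd_prod_of_mem _ hi)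

omit [Fintype ι] [DecidableEq ι] in
lemma per_ka (P : ℤ[X]) (π : ∀ i, ZMod (q i) → ℝ) (S : Finset ι) : Per (qq q S) (ka q P π S) :=
  per_prod S fun i hi => (per_zmod (q i) fun x => ((push (q i) P (π i) x - 1 : ℝ) : ℂ)).mono
    (dvd_prod_of_mem _ hi)

omit [DecidableEq ι] [∀ i, NeZero (q i)] in
lemma per_dens (io : ∀ i, ZMod (q i) → ℝ) (Q N : ℕ) (h : ∀ i, q i ∣ Q → q i ∣ N) :
    Per N (dens q io Q) :=
  per_prod _ fun i hi => (per_zmod (q i) fun x => (io i x : ℂ)).mono (h i (mem_filter.mp hi).2)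

omit [Fintype ι] [DecidableEq ι] [∀ i, NeZero (q i)] in
lemma qq_ne_zero (hq : ∀ i, (q i).Prime) (S : Finset ι) : qq q S ≠ 0 :=
  prod_ne_zero_iff.mpr fun i _ => (hq i).ne_zero

omit [Fintype ι] [DecidableEq ι] [∀ i, NeZero (q i)] in
lemma prime_dvd_qq (hq : ∀ i, (q i).Prime) {l : ℕ} (hl : l.Prime) {S : Finset ι}
    (h : l ∣ qq q S) : ∃ i ∈ S, q i = l := by
  obtain ⟨i, hi, hli⟩ := (Nat.Prime.prime hl).dvd_finsetProd_iff _ |>.mp h
  exact ⟨i, hi, ((Nat.prime_dvd_prime_iff_eq hl (hq i)).mp hli).symm⟩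

omit [DecidableEq ι] [∀ i, NeZero (q i)] in
lemma eq_prod_pow (hinj : Function.Injective q) {q₀ : ℕ} (h0 : q₀ ≠ 0)
    (h : ∀ l : ℕ, l.Prime → l ∣ q₀ → l ∈ Set.range q) :
    q₀ = ∏ i, q i ^ q₀.factorization (q i) := by
  conv_lhs => rw [← Nat.prod_factorization_pow_eq_self h0]
  rw [← prod_image (s := univ) (g := q) (f := fun l => l ^ q₀.factorization l)
    (fun i _ j _ hij => hinj hij), Finsupp.prod]
  refine prod_subset (fun l hl => ?_) fun l _ hl => ?_
  · have hl' := Nat.support_factorization q₀ ▸ hl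
    obtain ⟨i, hi⟩ := h l (Nat.prime_of_mem_primeFactors hl') (Nat.dvd_of_mem_primeFactors hl')
    exact mem_image.mpr ⟨i, mem_univ _, hi⟩
  · rw [Finsupp.notMem_support_iff.mp hl, pow_zero]

omit [Fintype ι] [DecidableEq ι] in
lemma mean_eq_one {i : ι} {f : ZMod (q i) → ℝ} (hf : ∑ n, f n = q i) {Q : ℕ} (hQ : Q ≠ 0)
    (hd : q i ∣ Q) : mean Q (fun m => (f (m : ZMod (q i)) : ℂ)) = 1 := by
  rw [(per_zmod (q i) fun x => (f x : ℂ)).mean_dvd hd hQ, mean_zmod (q i) fun x => (f x : ℂ)]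
  have : (q i : ℂ) ≠ 0 := by exact_mod_cast NeZero.ne (q i)
  rw [← Complex.ofReal_sum, hf]
  simp [this]

omit [Fintype ι] [DecidableEq ι] in
lemma LD.A_eq {P : ℤ[X]} {π io : ∀ i, ZMod (q i) → ℝ} {δ : ℝ} (h : LD q P π io δ) (i : ι) (j : ℕ)
    (b : ℤ) (hb : IsCoprime b ((q i ^ j : ℕ) : ℤ)) :
    mean (q i ^ (j + 1)) (fun t => (push (q i) P (π i) (t : ZMod (q i)) : ℂ) * ch b (q i ^ j) t) =
    mean (q i ^ (j + 1)) (fun m => (π i (m : ZMod (q i)) : ℂ) * ch b (q i ^ j) (P.eval m)) := by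
  have hp := h.prime i
  have hQ : q i ^ (j + 1) ≠ 0 := pow_ne_zero _ hp.ne_zero
  have hd : q i ∣ q i ^ (j + 1) := dvd_pow_self _ (by omega)
  rcases le_or_gt j 1 with hj | hj
  · have hper : Per (q i) (ch b (q i ^ j)) :=
      (per_ch b _).mono (by simpa using pow_dvd_pow (q i) hj)
    rw [((per_zmod (q i) fun x => (push (q i) P (π i) x : ℂ)).mul hper).mean_dvd hd hQ,
      ((per_zmod (q i) fun x => (π i x : ℂ)).mul (hper.poly P)).mean_dvd hd hQ]
    exact mean_push (q i) P (π i) hper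
  · have hb' : ¬ (q i : ℤ) ∣ b := fun hd' => by
      have := hb.isUnit_of_dvd' hd' (by push_cast; exact dvd_pow_self _ (by omega))
      exact (Nat.prime_iff_prime_int.mp hp).not_isUnit this
    have e1 := hensel hp hj (pow_dvd_pow (q i) (Nat.le_succ j)) hb' X
      (per_zmod (q i) fun x => (push (q i) P (π i) x : ℂ)) (fun m _ hd' => by
        simp only [derivative_X, eval_one] at hd'
        exact (Nat.prime_iff_prime_int.mp hp).not_dvd_one hd')
    simp only [eval_X] at e1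
    rw [e1, hensel hp hj (pow_dvd_pow (q i) (Nat.le_succ j)) hb' P
      (per_zmod (q i) fun x => (π i x : ℂ)) (fun m hm hd' => by
        refine (h.supp i (m : ZMod (q i)) (by exact_mod_cast hm)).2 ?_
        rw [evz_intCast, ZMod.intCast_zmod_eq_zero_iff_dvd]; exact hd')]

/-- **Comparison of the singular series.** -/
theorem LD.sing {P : ℤ[X]} {π io : ∀ i, ZMod (q i) → ℝ} {δ : ℝ} (h : LD q P π io δ)
    {y : ℝ} (hy : 0 < y) (hδ : 0 ≤ δ) {q₀ : ℕ} (h0 : q₀ ≠ 0) {a : ℤ} (ha : IsCoprime a q₀)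
    (hs : ∀ l : ℕ, l.Prime → l ∣ q₀ → l ∉ Set.range q →
      ¬ (l : ℤ) ∣ P.coeff 1 ∧ ∀ j, 2 ≤ j → (l : ℤ) ∣ P.coeff j) :
    ‖∑ S ∈ low q ∅ y, mean (q₀ * qq q S)
        (fun m => (th q π io S m * ch a q₀ (P.eval m)) * dens q io (q₀ * qq q S) m) -
      ∑ S ∈ low q ∅ y, mean (q₀ * qq q S) (fun t => (ka q P π S t * ch a q₀ t) * 1)‖ ≤
      y ^ (-δ) := by
  have hp := h.prime
  have hper1 : ∀ S, Per (q₀ * qq q S)
      (fun m => (th q π io S m * ch a q₀ (P.eval m)) * dens q io (q₀ * qq q S) m) := fun S =>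
    (((per_th π io S).mono (Dvd.intro_left _ rfl)).mul
      (((per_ch a q₀).mono (Dvd.intro _ rfl)).poly P)).mul (per_dens io _ _ fun _ hi => hi)
  have hper2 : ∀ S, Per (q₀ * qq q S) (fun t => (ka q P π S t * ch a q₀ t) * 1) := fun S =>
    (((per_ka P π S).mono (Dvd.intro_left _ rfl)).mul
      ((per_ch a q₀).mono (Dvd.intro _ rfl))).mul (per_const _ _)
  have hSu : ∀ S, qq q S ∣ qq q univ := fun S => prod_dvd_prod_of_subset _ _ _ (subset_univ S)
  by_cases hl : ∃ l : ℕ, l.Prime ∧ l ∣ q₀ ∧ l ∉ Set.range q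
  · obtain ⟨l, hl1, hl2, hl3⟩ := hl
    have hla : ¬ (l : ℤ) ∣ a := fun hd => (Nat.prime_iff_prime_int.mp hl1).not_isUnit
      (ha.isUnit_of_dvd' hd (Int.natCast_dvd_natCast.mpr hl2))
    have hlN : ¬ l ∣ qq q univ := fun hd => by
      obtain ⟨i, _, hi⟩ := prime_dvd_qq hp hl1 hd
      exact hl3 ⟨i, hi⟩
    rw [sum_eq_zero fun S _ => ?_, sum_eq_zero fun S _ => ?_, sub_zero, norm_zero]
    · positivity
    · have := small_vanish (Q := q₀ * qq q S) hl1 h0 hl2 hla hlN X (by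
        simpa using (Nat.prime_iff_prime_int.mp hl1).not_dvd_one) (fun j hj => by
          rw [coeff_X, if_neg (by omega)]; simp) ((per_ka P π S).mono (hSu S))
          (by simpa using hper2 S)
      simpa using this
    · have := small_vanish (Q := q₀ * qq q S) hl1 h0 hl2 hla hlN P (hs l hl1 hl2 hl3).1
        (hs l hl1 hl2 hl3).2 (((per_th π io S).mono (hSu S)).mul
          (per_dens io (q₀ * qq q S) _ fun i _ => dvd_prod_of_mem _ (mem_univ i)))
          (by simpa only [mul_right_comm] using hper1 S)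
      simpa only [mul_right_comm] using this
  push Not at hl
  set j : ι → ℕ := fun i => q₀.factorization (q i) with hj
  have hq₀ : q₀ = ∏ i, q i ^ j i := eq_prod_pow h.inj h0 hl
  have hcop : ∀ (u : ι → ℕ), ∀ i ∈ (univ : Finset ι), ∀ i' ∈ (univ : Finset ι), i ≠ i' →
      (q i ^ u i).Coprime (q i' ^ u i') := fun u i _ i' _ hne =>
    Nat.Coprime.pow _ _ ((Nat.coprime_primes (hp i) (hp i')).mpr fun he => hne (h.inj he))
  obtain ⟨b, hb1, hb2⟩ := ch_factor univ (fun i => q i ^ j i)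
    (fun i _ => pow_ne_zero _ (hp i).ne_zero) (hcop j) a (by rw [← hq₀]; exact ha)
  rw [← hq₀] at hb2
  have hN : ∏ i, q i ^ (j i + 1) = q₀ * qq q univ := by
    simp only [pow_succ, prod_mul_distrib]; rw [← hq₀]; rfl
  have hN0 : ∏ i, q i ^ (j i + 1) ≠ 0 := by rw [hN]; exact mul_ne_zero h0 (qq_ne_zero hp _)
  have hNd : ∀ S, q₀ * qq q S ∣ ∏ i, q i ^ (j i + 1) := fun S => by
    rw [hN]; exact Nat.mul_dvd_mul_left _ (hSu S)
  have hjd : ∀ i, q i ∣ q₀ ↔ j i ≠ 0 := fun i => by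
    rw [(hp i).dvd_iff_one_le_factorization h0]; simp only [hj]; omega
  have hpow : ∀ i, q i ^ (j i + 1) ≠ 0 := fun i => pow_ne_zero _ (hp i).ne_zero
  have hdv : ∀ i, q i ∣ q i ^ (j i + 1) := fun i => dvd_pow_self _ (by omega)
  have hch : ∀ i, Per (q i ^ (j i + 1)) (ch (b i) (q i ^ j i)) := fun i =>
    (per_ch _ _).mono (pow_dvd_pow _ (by omega))
  set A : ι → ℂ := fun i => mean (q i ^ (j i + 1))
    (fun m => (π i (m : ZMod (q i)) : ℂ) * ch (b i) (q i ^ j i) (P.eval m)) with hA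
  set C : ι → ℂ := fun i => mean (q i ^ (j i + 1))
    (fun m => (io i (m : ZMod (q i)) : ℂ) * ch (b i) (q i ^ j i) (P.eval m)) with hC
  set C' : ι → ℂ := fun i => mean (q i ^ (j i + 1)) (ch (b i) (q i ^ j i)) with hC'
  have hbd : ∀ i, j i ≠ 0 → ¬ (q i : ℤ) ∣ b i := fun i hi hd' =>
    (Nat.prime_iff_prime_int.mp (hp i)).not_isUnit
      ((hb1 i (mem_univ i)).isUnit_of_dvd' hd' (by push_cast; exact dvd_pow_self _ hi))
  have hC1 : ∀ i, j i = 0 → C i = 1 := fun i hi => by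
    simp only [hC, hi, pow_zero, ch_one, mul_one]
    exact mean_eq_one (h.io_sum i) (pow_ne_zero _ (hp i).ne_zero) (dvd_pow_self _ (by omega))
  have e1 : ∀ S, mean (q₀ * qq q S)
      (fun m => (th q π io S m * ch a q₀ (P.eval m)) * dens q io (q₀ * qq q S) m) =
      (∏ i ∈ S, (A i - C i)) * ∏ i ∈ Sᶜ, C i := by
    intro S
    set f : ι → ℤ → ℂ := fun i m => (if i ∈ S then (π i (m : ZMod (q i)) - io i (m : ZMod (q i)) : ℂ)
      else if j i = 0 then 1 else io i (m : ZMod (q i))) * ch (b i) (q i ^ j i) (P.eval m) with hf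
    have hfe : (fun m => (th q π io S m * ch a q₀ (P.eval m)) * dens q io (q₀ * qq q S) m) =
        fun m => ∏ i, f i m := by
      funext m
      rw [hb2, th, dens, prod_filter, ← Fintype.prod_ite_mem S, ← prod_mul_distrib,
        ← prod_mul_distrib]
      refine prod_congr rfl fun i _ => ?_
      simp only [hf]
      by_cases hi : i ∈ S
      · rw [if_pos hi, if_pos hi, if_pos (Dvd.dvd.mul_left (dvd_prod_of_mem _ hi) _),
          mul_right_comm]
        congr 1
        by_cases h1 : io i (m : ZMod (q i)) = 0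
        · have h2 : π i (m : ZMod (q i)) = 0 := by
            by_contra h2; exact (h.supp i _ h2).1 h1
          simp [h1, h2]
        · have : (io i (m : ZMod (q i)) : ℂ) ≠ 0 := by exact_mod_cast h1
          push_cast; field_simp
      · rw [if_neg hi, if_neg hi, one_mul, mul_comm]
        congr 1
        by_cases h1 : j i = 0
        · rw [if_pos h1, if_neg]
          intro hd
          rcases ((hp i).dvd_mul).mp hd with h2 | h2
          · exact (hjd i).mp h2 h1
          · obtain ⟨i', hi', he⟩ := prime_dvd_qq hp (hp i) h2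
            exact hi (h.inj he ▸ hi')
        · rw [if_neg h1, if_pos (Dvd.dvd.mul_right ((hjd i).mpr h1) _)]
    rw [← (hper1 S).mean_dvd (hNd S) hN0, hfe, mean_prod univ _ f (fun i _ => hpow i)
      (hcop fun i => j i + 1) (fun i _ => ((per_zmod (q i) fun x => if i ∈ S then
        (π i x - io i x : ℂ) else if j i = 0 then 1 else io i x).mono (hdv i)).mul
          ((hch i).poly P)), ← prod_mul_prod_compl S]
    congr 1
    · refine prod_congr rfl fun i hi => ?_
      simp only [hf, if_pos hi, sub_mul, hA, hC]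
      exact mean_sub _ _ _
    · refine prod_congr rfl fun i hi => ?_
      simp only [hf, if_neg (mem_compl.mp hi)]
      by_cases h1 : j i = 0
      · rw [hC1 i h1]
        simp only [h1, if_true, pow_zero, ch_one, mul_one]
        exact mean_const (pow_ne_zero _ (hp i).ne_zero) 1
      · simp only [if_neg h1, hC]
  have e2 : ∀ S, mean (q₀ * qq q S) (fun t => (ka q P π S t * ch a q₀ t) * 1) =
      (∏ i ∈ S, (A i - C' i)) * ∏ i ∈ Sᶜ, C' i := by
    intro S
    set f : ι → ℤ → ℂ := fun i t => (if i ∈ S then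
      (push (q i) P (π i) (t : ZMod (q i)) - 1 : ℂ) else 1) * ch (b i) (q i ^ j i) t with hf
    have hfe : (fun t => (ka q P π S t * ch a q₀ t) * 1) = fun m => ∏ i, f i m := by
      funext m
      rw [hb2, ka, ← Fintype.prod_ite_mem S, ← prod_mul_distrib, mul_one]
      refine prod_congr rfl fun i _ => ?_
      simp only [hf]
      split_ifs <;> simp
    rw [← (hper2 S).mean_dvd (hNd S) hN0, hfe, mean_prod univ _ f (fun i _ => hpow i)
      (hcop fun i => j i + 1) (fun i _ => ((per_zmod (q i) fun x => if i ∈ S then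
        (push (q i) P (π i) x - 1 : ℂ) else 1).mono (hdv i)).mul (hch i)), ← prod_mul_prod_compl S]
    congr 1
    · refine prod_congr rfl fun i hi => ?_
      simp only [hf, if_pos hi, sub_mul, one_mul, hA, hC']
      rw [mean_sub, h.A_eq i (j i) (b i) (hb1 i (mem_univ i))]
    · refine prod_congr rfl fun i hi => ?_
      simp only [hf, if_neg (mem_compl.mp hi), one_mul, hC']
  simp only [e1, e2]
  refine alg q (fun i => (hp i).one_le) hy hδ (univ.filter fun i => j i ≠ 0) A C C' ?_ ?_ ?_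
  · intro i hi
    have h1 : j i = 0 := by simpa using hi
    refine ⟨?_, hC1 i h1, ?_⟩
    · simp only [hA, h1, pow_zero, ch_one, mul_one]
      exact mean_eq_one (h.pi_sum i) (pow_ne_zero _ (hp i).ne_zero) (dvd_pow_self _ (by omega))
    · simp only [hC', h1, pow_zero]
      rw [show ch (b i) 1 = fun _ => 1 from funext fun t => ch_one _ t]
      exact mean_const (pow_ne_zero _ (hp i).ne_zero) 1
  · intro i hi
    have h1 : j i ≠ 0 := (mem_filter.mp hi).2
    simp only [hC']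
    rw [(per_ch _ _).mean_dvd (pow_dvd_pow _ (Nat.le_succ _)) (hpow i), mean,
      sum_ch (pow_ne_zero _ (hp i).ne_zero) (fun hd => hbd i h1
        (Dvd.dvd.trans (by push_cast; exact dvd_pow_self _ h1) hd)), zero_div]
  · intro i hi
    have h1 : j i ≠ 0 := (mem_filter.mp hi).2
    exact h.bound i (j i) (b i) (by omega) (hbd i h1)

end Crest.Agent.N41.Pair
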