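import Crest.Agent.N41.Pair.Sing
import Crest.Agent.N41.Pair.Abel

/-!
# Row 41, Pair Lemma, part 5 (helper95): the sup norm bound (major and minor arcs), abstract form.
-/

set_option autoImplicit false

open Finset Polynomial
open scoped BigOperators

namespace Crest.Agent.N41.Pair

open Crest.Agent.N41.Exp
open Crest.Agent.N41.ES (qq)

variable {ι : Type} [Fintype ι] [DecidableEq ι] {q : ι → ℕ}

omit [Fintype ι] [DecidableEq ι] in
lemma qq_inj (hq : ∀ i, (q i).Prime) (hinj : Function.Injective q) : Function.Injective (qq q) := by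
  classical
  have h : ∀ S : Finset ι, (qq q S).primeFactors = S.image q := by
    intro S
    rw [qq, ← prod_image (s := S) (g := q) (f := fun l => l) (fun i _ j _ hij => hinj hij)]
    exact Nat.primeFactors_prod fun l hl => by
      obtain ⟨i, _, rfl⟩ := mem_image.mp hl; exact hq i
  intro S T hST
  exact image_injective hinj (by rw [← h, ← h, hST])

lemma card_low (hq : ∀ i, (q i).Prime) (hinj : Function.Injective q) {y : ℝ} (hy : 0 ≤ y) :
    (#(low q ∅ y) : ℝ) ≤ y := by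
  have h1 : #(low q ∅ y) ≤ #(Icc 1 ⌊y⌋₊) := by
    refine card_le_card_of_injOn (qq q) (fun S hS => ?_) (qq_inj hq hinj).injOn
    exact mem_coe.mpr (mem_Icc.mpr ⟨Nat.pos_of_ne_zero (qq_ne_zero hq S),
      Nat.le_floor (mem_low.mp (mem_coe.mp hS))⟩)
  rw [Nat.card_Icc] at h1
  exact le_trans (by exact_mod_cast h1) (Nat.floor_le hy)

lemma sum_low_le (hq : ∀ i, (q i).Prime) (hinj : Function.Injective q) {y : ℝ} (hy : 0 ≤ y)
    (f : Finset ι → ℂ) {B : ℝ} (hB0 : 0 ≤ B) (hB : ∀ S, (qq q S : ℝ) ≤ y → ‖f S‖ ≤ B) :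
    ‖∑ S ∈ low q ∅ y, f S‖ ≤ y * B := by
  refine (norm_sum_le _ _).trans ((sum_le_sum fun S hS => hB S (mem_low.mp hS)).trans ?_)
  rw [sum_const, nsmul_eq_mul]
  gcongr
  exact card_low hq hinj hy

omit [Fintype ι] [DecidableEq ι] in
lemma norm_prod_le_qq (hq : ∀ i, (q i).Prime) (S : Finset ι) (f : ι → ℝ)
    (hf : ∀ i, 0 ≤ f i ∧ f i ≤ q i) : ‖∏ i ∈ S, ((f i - 1 : ℝ) : ℂ)‖ ≤ qq q S := by
  rw [norm_prod, qq, Nat.cast_prod]
  refine prod_le_prod (fun _ _ => norm_nonneg _) fun i _ => ?_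
  have : (1 : ℝ) ≤ q i := by exact_mod_cast (hq i).one_le
  rw [Complex.norm_real, Real.norm_eq_abs, abs_le]
  constructor <;> linarith [(hf i).1, (hf i).2]

variable [∀ i, NeZero (q i)] {P : ℤ[X]} {π io : ∀ i, ZMod (q i) → ℝ} {δ : ℝ}

omit [Fintype ι] [DecidableEq ι] in
lemma LD.norm_th (h : LD q P π io δ) (S : Finset ι) (m : ℤ) : ‖th q π io S m‖ ≤ qq q S := by
  refine norm_prod_le_qq h.prime S _ fun i => ?_
  have h1 : π i (m : ZMod (q i)) ≤ q i := by
    rw [← h.pi_sum i]; exact single_le_sum (fun n _ => h.pi_nonneg i n) (mem_univ _)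
  have h0 := h.pi_nonneg i (m : ZMod (q i))
  rcases h.io_one i (m : ZMod (q i)) with h2 | h2
  · rw [h2]; simp
  · exact ⟨div_nonneg h0 (by linarith), (div_le_self h0 h2).trans h1⟩

omit [Fintype ι] [DecidableEq ι] in
lemma LD.norm_ka (h : LD q P π io δ) (S : Finset ι) (t : ℤ) : ‖ka q P π S t‖ ≤ qq q S := by
  refine norm_prod_le_qq h.prime S _ fun i => ⟨sum_nonneg fun n _ => h.pi_nonneg i n, ?_⟩
  rw [← h.pi_sum i]
  exact sum_le_sum_of_subset_of_nonneg (subset_univ _) fun n _ _ => h.pi_nonneg i n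

lemma norm_mean_le_const {Q : ℕ} (hQ : Q ≠ 0) (f : ℤ → ℂ) {B : ℝ} (h : ∀ m, ‖f m‖ ≤ B) :
    ‖mean Q f‖ ≤ B := by
  refine (norm_mean_le f (fun _ => B) h).trans (le_of_eq ?_)
  have : (Q : ℝ) ≠ 0 := by exact_mod_cast hQ
  simp; field_simp

/-- major arc estimate for one periodic coefficient -/
lemma major_aux {Q : ℕ} (hQ : Q ≠ 0) {F : ℤ → ℂ} (hF : Per Q F) {B E V : ℝ}
    (hB : ∀ m, ‖F m‖ ≤ B) (z d v : ℤ → ℂ) {a b : ℤ} (hab : a ≤ b)
    (hE : ∀ ρ x : ℤ, a ≤ x → x ≤ b → ‖∑ m ∈ (Ico a x).filter (fun m => (Q : ℤ) ∣ m - ρ), z m -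
      ((x : ℂ) - a) / Q * d ρ‖ ≤ E)
    (hV : ‖v b‖ + ∑ n ∈ Ico a b, ‖v (n + 1) - v n‖ ≤ V) :
    ‖∑ m ∈ Ico a b, F m * z m * v m - mean Q (fun m => F m * d m) * ∑ m ∈ Ico a b, v m‖ ≤
      Q * B * E * V := by
  rw [mul_sum, ← sum_sub_distrib]
  simp only [← sub_mul]
  refine abel_le _ v hab (fun x h1 h2 => ?_) hV
  rw [sum_sub_distrib, sum_const, nsmul_eq_mul]
  have : ((#(Ico a x) : ℕ) : ℂ) = (x : ℂ) - a := by
    exact_mod_cast congrArg (fun z : ℝ => (z : ℂ)) (card_Ico_real h1)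
  rw [this]
  exact hF.norm_sum_sub_mean hQ hB _ z d _ fun ρ => hE ρ x h1 h2

lemma exists_reduced {α R ε : ℝ} (h : Appr α R ε) :
    ∃ (q₀ : ℕ) (a : ℤ) (β : ℝ), q₀ ≠ 0 ∧ (q₀ : ℝ) ≤ R ∧ IsCoprime a q₀ ∧ |β| ≤ ε ∧
      α = a / q₀ + β := by
  obtain ⟨n, hn1, hn2, z, hz⟩ := h
  have hn0 : (0 : ℝ) < n := by exact_mod_cast hn1
  have hn1' : (1 : ℝ) ≤ n := by exact_mod_cast hn1
  set x : ℚ := (z : ℚ) / n with hx
  have hden : x.den ∣ n := by
    have := Rat.den_dvd z n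
    rw [Rat.divInt_eq_div, Int.cast_natCast, ← hx] at this
    exact Int.natCast_dvd_natCast.mp this
  refine ⟨x.den, x.num, α - z / n, x.den_nz, le_trans (by exact_mod_cast Nat.le_of_dvd hn1 hden)
    hn2, Int.isCoprime_iff_gcd_eq_one.mpr x.reduced, ?_, ?_⟩
  · have e1 : α - z / n = (n * α - z) / n := by field_simp
    rw [e1, abs_div, abs_of_pos hn0]
    exact (div_le_self (abs_nonneg _) hn1').trans hz
  · have e1 : ((x.num : ℝ) / x.den) = (x : ℝ) := (Rat.cast_def x).symm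
    rw [e1, hx]; push_cast; ring

/-- **The sup norm bound.** -/
theorem LD.sup (h : LD q P π io δ) (hδ : 0 ≤ δ) {a b : ℤ} {Δ y R R' ε E₀ E₁ : ℝ}
    (hc : Conv (fun m => P.eval m) a b Δ) (φ : ℤ → ℂ) (hy : 1 ≤ y) (hyR : y ≤ R) (hε : 0 < ε)
    (hR' : ε * (((P.eval b : ℤ) : ℝ) - (P.eval a : ℤ)) ≤ R')
    (hs : ∀ l : ℕ, l.Prime → (l : ℝ) ≤ R → l ∉ Set.range q →
      ¬ (l : ℤ) ∣ P.coeff 1 ∧ ∀ j, 2 ≤ j → (l : ℤ) ∣ P.coeff j)
    (hE₀ : ∀ Q : ℕ, Q ≠ 0 → (Q : ℝ) ≤ R * y → ∀ ρ x : ℤ, a ≤ x → x ≤ b →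
      ‖∑ m ∈ (Ico a x).filter (fun m => (Q : ℤ) ∣ m - ρ), φ m -
        ((x : ℂ) - a) / Q * dens q io Q ρ‖ ≤ E₀)
    (hE₁ : ∀ α : ℝ, ¬ Appr α R ε → ∀ Q : ℕ, Q ≠ 0 → (Q : ℝ) ≤ y → ∀ ρ x : ℤ, a ≤ x → x ≤ b →
      ‖∑ m ∈ (Ico a x).filter (fun m => (Q : ℤ) ∣ m - ρ), φ m * e (α * (P.eval m : ℤ))‖ ≤ E₁)
    (hE₁0 : 0 ≤ E₁) (α : ℝ) :
    ‖∑ m ∈ Ico a b, (∑ S ∈ low q ∅ y, th q π io S m) * φ m * (inc (fun m => P.eval m) m : ℂ) *
        e (α * (P.eval m : ℤ)) -
      ∑ t ∈ Ico (P.eval a) (P.eval b), (∑ S ∈ low q ∅ y, ka q P π S t) * e (α * t)‖ ≤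
      (((P.eval b : ℤ) : ℝ) - (P.eval a : ℤ)) * y ^ (-δ) + y * y * (Δ * (7 * R')) +
      y * (R * y * y * E₀ * (Δ * (2 + 7 * R'))) + y * (R * y * y * 1 * (1 + 7 * R')) +
      y * (y * y * E₁ * (Δ * 2)) + y * (y * y * (1 / (2 * ε))) := by
  have hp := h.prime
  have hab := hc.le
  have hy0 : 0 < y := by linarith
  have hPab : P.eval a ≤ P.eval b := hc.P_mono le_rfl hab le_rfl
  set L : ℝ := ((P.eval b : ℤ) : ℝ) - (P.eval a : ℤ) with hL
  have hL0 : 0 ≤ L := sub_nonneg.mpr (by exact_mod_cast hPab)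
  have hR'0 : 0 ≤ R' := le_trans (by positivity) hR'
  have hΔ : 0 ≤ Δ := le_trans (by exact_mod_cast hc.inc_nonneg hab le_rfl) hc.top
  have hE₀0 : 0 ≤ E₀ := (norm_nonneg _).trans
    (hE₀ 1 one_ne_zero (by push_cast; nlinarith) 0 a le_rfl hab)
  have hR0 : 0 < R := by linarith
  simp only [sum_mul]
  rw [sum_comm, sum_comm (s := Ico (P.eval a) (P.eval b))]
  by_cases hα : Appr α R ε
  · obtain ⟨q₀, a₀, β, h0, hq₀, ha₀, hβ, rfl⟩ := exists_reduced hα
    have hβL : |β| * L ≤ R' := le_trans (by gcongr) hR'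
    have he : ∀ t : ℤ, e (((a₀ : ℝ) / q₀ + β) * t) = ch a₀ q₀ t * e (β * t) := by
      intro t; unfold ch; rw [← e_add]; congr 1; ring
    set J₁ := ∑ m ∈ Ico a b, (inc (fun m => P.eval m) m : ℂ) * e (β * (P.eval m : ℤ)) with hJ₁
    set J₂ := ∑ t ∈ Ico (P.eval a) (P.eval b), e (β * t) with hJ₂
    set M₁ : Finset ι → ℂ := fun S => mean (q₀ * qq q S)
      (fun m => (th q π io S m * ch a₀ q₀ (P.eval m)) * dens q io (q₀ * qq q S) m) with hM₁
    set M₂ : Finset ι → ℂ := fun S => mean (q₀ * qq q S)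
      (fun t => (ka q P π S t * ch a₀ q₀ t) * 1) with hM₂
    have hQ : ∀ S, q₀ * qq q S ≠ 0 := fun S => mul_ne_zero h0 (qq_ne_zero hp S)
    have hQy : ∀ S, (qq q S : ℝ) ≤ y → ((q₀ * qq q S : ℕ) : ℝ) ≤ R * y := fun S hS => by
      push_cast; gcongr
    have k1 := sum_low_le hp h.inj hy0.le (fun S => ∑ m ∈ Ico a b, th q π io S m * φ m *
      (inc (fun m => P.eval m) m : ℂ) * e (((a₀ : ℝ) / q₀ + β) * (P.eval m : ℤ)) - M₁ S * J₁)
      (B := R * y * y * E₀ * (Δ * (2 + 7 * R'))) (by positivity) (by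
        intro S hS
        have := major_aux (hQ S) (((per_th π io S).mono (Dvd.intro_left _ rfl)).mul
          (((per_ch a₀ q₀).mono (Dvd.intro _ rfl)).poly P)) (B := y) (fun m => by
            rw [norm_mul, norm_ch, mul_one]; exact (h.norm_th S m).trans hS) φ
          (dens q io (q₀ * qq q S))
          (fun m => (inc (fun m => P.eval m) m : ℂ) * e (β * (P.eval m : ℤ))) hab
          (hE₀ _ (hQ S) (hQy S hS)) (hc.var β)
        refine le_trans (le_of_eq ?_) (this.trans ?_)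
        · congr 2
          exact sum_congr rfl fun m _ => by rw [he]; ring
        · gcongr
          exact hQy S hS)
    have k2 := sum_low_le hp h.inj hy0.le (fun S => ∑ t ∈ Ico (P.eval a) (P.eval b),
      ka q P π S t * e (((a₀ : ℝ) / q₀ + β) * t) - M₂ S * J₂)
      (B := R * y * y * 1 * (1 + 7 * R')) (by positivity) (by
        intro S hS
        have := major_aux (hQ S) (((per_ka P π S).mono (Dvd.intro_left _ rfl)).mul
          ((per_ch a₀ q₀).mono (Dvd.intro _ rfl))) (B := y) (E := 1) (fun m => by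
            rw [norm_mul, norm_ch, mul_one]; exact (h.norm_ka S m).trans hS) (fun _ => 1)
          (fun _ => 1) (fun t => e (β * t)) hPab (fun ρ x h1 _ => by
            have := card_class' (hQ S) h1 ρ
            rw [← Real.norm_eq_abs, ← Complex.norm_real] at this
            simpa using this) (var_e β hPab)
        refine le_trans (le_of_eq ?_) (this.trans ?_)
        · congr 2
          exact sum_congr rfl fun m _ => by rw [he]; ring
        · gcongr
          exact hQy S hS)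
    have k3 := h.sing hy0 hδ h0 ha₀ (y := y) fun l hl hd => hs l hl
      (le_trans (by exact_mod_cast Nat.le_of_dvd (Nat.pos_of_ne_zero h0) hd) hq₀)
    have k4 : ‖∑ S ∈ low q ∅ y, M₂ S‖ ≤ y * y := sum_low_le hp h.inj hy0.le M₂ hy0.le
      fun S hS => norm_mean_le_const (hQ S) _ fun m => by
        rw [mul_one, norm_mul, norm_ch, mul_one]; exact (h.norm_ka S m).trans hS
    have k5 : ‖J₁‖ ≤ L := hc.norm_sum β
    have k6 : ‖J₁ - J₂‖ ≤ Δ * (7 * R') := (hc.arch β).trans (by gcongr)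
    rw [sum_sub_distrib, ← sum_mul] at k1 k2
    change ‖∑ S ∈ low q ∅ y, M₁ S - ∑ S ∈ low q ∅ y, M₂ S‖ ≤ _ at k3
    have k7 : ‖(∑ S ∈ low q ∅ y, M₁ S) * J₁ - (∑ S ∈ low q ∅ y, M₂ S) * J₂‖ ≤
        L * y ^ (-δ) + y * y * (Δ * (7 * R')) := by
      rw [show (∑ S ∈ low q ∅ y, M₁ S) * J₁ - (∑ S ∈ low q ∅ y, M₂ S) * J₂ =
        J₁ * (∑ S ∈ low q ∅ y, M₁ S - ∑ S ∈ low q ∅ y, M₂ S) +
          (∑ S ∈ low q ∅ y, M₂ S) * (J₁ - J₂) by ring]
      refine (norm_add_le _ _).trans ?_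
      rw [norm_mul, norm_mul]
      gcongr
    have k8 : ∀ u v u' v' : ℂ, ‖u - v‖ ≤ ‖u - u'‖ + ‖v - v'‖ + ‖u' - v'‖ := fun u v u' v' => by
      rw [show u - v = (u - u') - (v - v') + (u' - v') by ring]
      exact (norm_add_le _ _).trans (by gcongr; exact norm_sub_le _ _)
    refine (k8 _ _ _ _).trans ((add_le_add (add_le_add k1 k2) k7).trans ?_)
    have : 0 ≤ y * (y * y * E₁ * (Δ * 2)) + y * (y * y * (1 / (2 * ε))) := by positivity
    linarith
  · have k1 := sum_low_le hp h.inj hy0.le (fun S => ∑ m ∈ Ico a b, th q π io S m * φ m *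
      (inc (fun m => P.eval m) m : ℂ) * e (α * (P.eval m : ℤ)))
      (B := y * y * E₁ * (Δ * 2)) (by positivity) (by
        intro S hS
        have hv := hc.var 0
        simp only [zero_mul, e_zero, mul_one, abs_zero, mul_zero, add_zero] at hv
        have := abel_le (fun m => th q π io S m * (φ m * e (α * (P.eval m : ℤ))))
          (fun m => (inc (fun m => P.eval m) m : ℂ)) hab (E := y * y * E₁) (fun x h1 h2 =>
            ((per_th π io S).norm_sum_le (qq_ne_zero hp S) (fun m => (h.norm_th S m).trans hS) _ _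
              fun ρ => hE₁ α hα _ (qq_ne_zero hp S) hS ρ x h1 h2).trans (by gcongr)) hv
        refine le_trans (le_of_eq ?_) this
        congr 1
        exact sum_congr rfl fun m _ => by ring)
    have k2 := sum_low_le hp h.inj hy0.le (fun S => ∑ t ∈ Ico (P.eval a) (P.eval b),
      ka q P π S t * e (α * t)) (B := y * y * (1 / (2 * ε))) (by positivity) (by
        intro S hS
        refine ((per_ka P π S).norm_sum_le (qq_ne_zero hp S) (fun m => (h.norm_ka S m).trans hS)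
          _ _ (E := 1 / (2 * ε)) fun ρ => ?_).trans (by gcongr)
        have h1 := linear_class (qq_ne_zero hp S) (P.eval a) (P.eval b) ρ α
        have h2 : ε ≤ |qq q S * α - round (qq q S * α)| := by
          by_contra h2
          exact hα ⟨qq q S, Nat.pos_of_ne_zero (qq_ne_zero hp S), hS.trans hyR, _,
            (not_le.mp h2).le⟩
        rw [le_div_iff₀ (by positivity)]
        nlinarith [norm_nonneg (∑ t ∈ (Ico (P.eval a) (P.eval b)).filter
          (fun m => ((qq q S : ℕ) : ℤ) ∣ m - ρ), e (α * t))])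
    refine (norm_sub_le _ _).trans ((add_le_add k1 k2).trans ?_)
    have : 0 ≤ L * y ^ (-δ) + y * y * (Δ * (7 * R')) +
      y * (R * y * y * E₀ * (Δ * (2 + 7 * R'))) + y * (R * y * y * 1 * (1 + 7 * R')) := by
      positivity
    linarith

end Crest.Agent.N41.Pair
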