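import Crest.Agent.N41.Pair.Sup

/-!
# Row 41, Pair Lemma, part 6 (helper95): the weight of the variable and its local densities.
-/

set_option autoImplicit false

open Finset Polynomial
open scoped BigOperators

namespace Crest.Agent.N41.Pair

/-- normalisation of the weight -/
noncomputable def cw (pr : Bool) (d : ℕ) : ℝ := if pr = true then (d.totient : ℝ) / d else 1

/-- the normalised weight of `m`: `1`, or `φ(d)/d · Λ(r + d m)` -/
noncomputable def phi (pr : Bool) (r d : ℕ) (m : ℤ) : ℂ :=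
  ((cw pr d * wt pr ((r : ℤ) + d * m).toNat : ℝ) : ℂ)

/-- the local density of the weight at `p` -/
noncomputable def iot (pr : Bool) (r d p : ℕ) (n : ZMod p) : ℝ :=
  if pr = true ∧ ¬ p ∣ d then (if (r : ZMod p) + d * n = 0 then 0 else (p : ℝ) / (p - 1)) else 1

/-- equidistribution of the weight in residue classes -/
def EqStmt (pr : Bool) : Prop :=
  ∃ δ C : ℝ, 0 < δ ∧ δ ≤ 1 / 2 ∧ 1 ≤ C ∧ ∀ (ι : Type) [Fintype ι] [DecidableEq ι] (q : ι → ℕ)
    [∀ i, NeZero (q i)] (r d Q : ℕ) (a x ρ : ℤ) (X : ℝ), (∀ i, (q i).Prime) →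
    Function.Injective q → r < d → (pr = true → Nat.Coprime r d) → Q ≠ 0 →
    (∀ p : ℕ, p.Prime → p ∣ Q → p ∉ Set.range q → pr = true → p ∣ d) →
    1 ≤ a → a ≤ x → (r : ℝ) + d * x ≤ X →
    ‖∑ m ∈ (Ico a x).filter (fun m => (Q : ℤ) ∣ m - ρ), phi pr r d m -
      ((x : ℂ) - a) / Q * dens q (fun i => iot pr r d (q i)) Q ρ‖ ≤
      C * X ^ (1 - δ) * Real.log (4 * (d * Q))

/-- the proper prime powers are negligible -/
def BadStmt (pr : Bool) : Prop :=
  ∃ C : ℝ, 1 ≤ C ∧ ∀ (r d : ℕ) (a b : ℤ) (X : ℝ), r < d → 1 ≤ a → a ≤ b → (r : ℝ) + d * b ≤ X →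
    ∑ m ∈ (Ico a b).filter (fun m => pr = true ∧ ¬ ((r : ℤ) + d * m).toNat.Prime),
      ‖phi pr r d m‖ ≤ C * √X

/-- passing from `m` to `n = r + d m` -/
lemma reindex {M : Type*} [AddCommMonoid M] {r d Q : ℕ} (hd : 1 ≤ d) (hQ : Q ≠ 0) {a x : ℤ}
    (ha : 1 ≤ a) (hx : a ≤ x) (ρ : ℤ) (g : ℕ → M) :
    ∑ m ∈ (Ico a x).filter (fun m => (Q : ℤ) ∣ m - ρ), g ((r : ℤ) + d * m).toNat =
      ∑ n ∈ (Ioc (r + d * a.toNat - 1) (r + d * x.toNat - 1)).filter
        (fun n => n ≡ r + d * (ρ % Q).toNat [MOD d * Q]), g n := by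
  have hQ' : (0 : ℤ) < Q := by exact_mod_cast Nat.pos_of_ne_zero hQ
  have hd' : (0 : ℤ) < d := by exact_mod_cast hd
  have hρ : (((ρ % Q).toNat : ℕ) : ℤ) = ρ % Q := Int.toNat_of_nonneg (Int.emod_nonneg ρ hQ'.ne')
  have hρ' := Int.mul_ediv_add_emod ρ Q
  obtain ⟨a, rfl⟩ := Int.eq_ofNat_of_zero_le (show 0 ≤ a by omega)
  obtain ⟨x, rfl⟩ := Int.eq_ofNat_of_zero_le (show 0 ≤ x by omega)
  simp only [Int.toNat_natCast]
  have ha1 : 1 ≤ d * a := Nat.mul_pos hd (by omega)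
  have hx1 : 1 ≤ d * x := Nat.mul_pos hd (by omega)
  have hcast : ∀ m : ℤ, 0 ≤ m → ((((r : ℤ) + d * m).toNat : ℕ) : ℤ) = r + d * m := fun m hm =>
    Int.toNat_of_nonneg (by positivity)
  refine sum_bij (fun m _ => ((r : ℤ) + d * m).toNat) ?_ ?_ ?_ (fun _ _ => rfl)
  · intro m hm
    obtain ⟨h1, c, hc⟩ := mem_filter.mp hm
    obtain ⟨h2, h3⟩ := mem_Ico.mp h1
    have h4 := hcast m (by omega)
    have h5 : (d : ℤ) * a ≤ d * m := by gcongr
    have h6 : (d : ℤ) * m < d * x := by gcongr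
    refine mem_filter.mpr ⟨mem_Ioc.mpr ⟨?_, ?_⟩, ?_⟩
    · zify [show 1 ≤ r + d * a by omega]; omega
    · zify [show 1 ≤ r + d * x by omega]; omega
    · rw [Nat.modEq_iff_dvd, h4]
      push_cast
      rw [hρ]
      exact ⟨-(ρ / Q) - c, by linear_combination (d : ℤ) * hρ' - d * hc⟩
  · intro m hm m' hm' he
    have h1 := hcast m (by have := (mem_Ico.mp (mem_filter.mp hm).1).1; omega)
    have h2 := hcast m' (by have := (mem_Ico.mp (mem_filter.mp hm').1).1; omega)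
    rw [he, h2] at h1
    exact (mul_left_cancel₀ hd'.ne' (add_left_cancel h1)).symm
  · intro n hn
    obtain ⟨h1, h2⟩ := mem_filter.mp hn
    obtain ⟨h3, h4⟩ := mem_Ioc.mp h1
    rw [Nat.modEq_iff_dvd] at h2
    push_cast at h2
    rw [hρ] at h2
    obtain ⟨c, hc⟩ := h2
    have hn' : (n : ℤ) = r + d * (ρ % Q - Q * c) := by linear_combination -hc
    have h5 : (r : ℤ) + d * a ≤ n := by exact_mod_cast (show r + d * a ≤ n by omega)
    have h6 : (n : ℤ) < r + d * x := by exact_mod_cast (show n < r + d * x by omega)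
    refine ⟨ρ % Q - Q * c, mem_filter.mpr ⟨mem_Ico.mpr ⟨?_, ?_⟩,
      ⟨-(ρ / Q) - c, by linear_combination hρ'⟩⟩, ?_⟩
    · exact le_of_mul_le_mul_left (by linarith) hd'
    · exact lt_of_mul_lt_mul_left (by linarith) hd'.le
    · rw [← hn']; simp

end Crest.Agent.N41.Pair
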